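import Vale.Agent.P338.CoreSpecD
import Vale.Agent.P338.H932.Bridge

/-!
Stage 2, list level: rotation, shear of the high digits, bit operations, rotation is transposition,
for `n = (p-1) * 2^β`.
-/

namespace Vale.Agent.P338.H811

open Vale.Agent.P338 Vale.Agent.P338.H932

/-- the bit operation for any `n` divisible by `2^(t+1)` -/
theorem bitop_matL' {n t : ℕ} (ht : 2 ^ (t + 1) ∣ n) (hn : 0 < n) (Y : ℕ → ℕ → Bool) :
    E.bitop n t (matL n Y) = matL n (colShift n (dig t (t + 1)) Y) := by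
  obtain ⟨r, hr⟩ := ht
  have hn' : n = r * 2 ^ (t + 1) := by rw [hr, Nat.mul_comm]
  have hpos : 0 < 2 ^ (t + 1) := by positivity
  have hr0 : 0 < r := by
    rcases Nat.eq_zero_or_pos r with h | h
    · subst h; omega
    · exact h
  have hdiv : n / 2 ^ (t + 1) = r := by rw [hn', Nat.mul_div_cancel _ hpos]
  have htn : 2 ^ t ≤ n := by
    rw [hn']
    calc 2 ^ t ≤ 2 ^ (t + 1) := Nat.pow_le_pow_right (by norm_num) (Nat.le_succ t)
      _ = 1 * 2 ^ (t + 1) := by ring
      _ ≤ r * 2 ^ (t + 1) := Nat.mul_le_mul_right _ hr0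
  unfold E.bitop
  rw [rotR_matL htn, hdiv]
  refine cat_congr fun i hi => ?_
  have hrow : ∀ g : ℕ → Bool, tab n g = cat r fun p => (tab (2 ^ t) fun s =>
      g (p * 2 ^ (t + 1) + s)) ++ tab (2 ^ t) fun s => g (p * 2 ^ (t + 1) + 2 ^ t + s) := by
    intro g
    rw [tab_eq_cat]
    conv_lhs => rw [hn']
    rw [cat_mul]
    refine cat_congr fun p _ => ?_
    rw [← tab_eq_cat, show 2 ^ (t + 1) = 2 ^ t + 2 ^ t by ring, tab_add]
    simp only [Nat.add_assoc]
  rw [← tab_eq_cat, hrow]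
  refine cat_congr fun p hp => ?_
  have hp1 : p * 2 ^ (t + 1) + 2 ^ (t + 1) ≤ n := by
    rw [← Nat.succ_mul, hn']
    exact Nat.mul_le_mul_right _ hp
  have hpt : 2 ^ (t + 1) = 2 ^ t + 2 ^ t := by ring
  unfold E.alt1
  rw [matL_slice hi (by omega), Nat.add_assoc, matL_slice hi (by omega)]
  have hmod : ∀ s, s < 2 ^ (t + 1) → (p * 2 ^ (t + 1) + s) / 2 ^ t % 2 = s / 2 ^ t := by
    intro s hs
    rw [show p * 2 ^ (t + 1) + s = s + 2 ^ t * (2 * p) by ring,
      Nat.add_mul_div_left _ _ (by positivity), Nat.add_mul_mod_self_left]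
    apply Nat.mod_eq_of_lt
    rw [Nat.div_lt_iff_lt_mul (by positivity)]
    omega
  congr 1
  · refine tab_congr fun s hs => ?_
    have : dig t (t + 1) (p * 2 ^ (t + 1) + s) = 0 := by
      rw [dig_succ, hmod s (by omega), Nat.div_eq_of_lt hs]
      simp
    simp only [colShift, this, Nat.sub_zero, Nat.add_mod_right, Nat.mod_eq_of_lt hi]
  · refine tab_congr fun s hs => ?_
    have : dig t (t + 1) (p * 2 ^ (t + 1) + 2 ^ t + s) = 2 ^ t := by
      rw [dig_succ, Nat.add_assoc, hmod (2 ^ t + s) (by omega), Nat.add_div_left _ (by positivity),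
        Nat.div_eq_of_lt hs]
      simp
    simp only [colShift, this]

theorem two_pow_le_of_dvd {n t : ℕ} (h : 2 ^ t ∣ n) (hn : 0 < n) : 2 ^ t ≤ n := Nat.le_of_dvd hn h

theorem bitop_eq_shear' {n t : ℕ} {X : List Bool} (hn : 0 < n) (ht : 2 ^ (t + 1) ∣ n)
    (hX : X.length = n * n) : E.bitop n t X = E.shear n t (t + 1) X := by
  rw [← matL_getM hX, bitop_matL' ht hn, shear_matL (Nat.le_succ t) (two_pow_le_of_dvd ht hn)]

/-- the bit operations commute with the shears of lower digits -/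
theorem bitop_shear_low {n t : ℕ} {X : List Bool} (hn : 0 < n) (ht : 2 ^ (t + 1) ∣ n)
    (hX : X.length = n * n) : E.bitop n t (E.shear n 0 t X) = E.shear n 0 (t + 1) X := by
  have h1 := two_pow_le_of_dvd ht hn
  have h0 : 2 ^ t ≤ n := le_trans (Nat.pow_le_pow_right (by norm_num) (Nat.le_succ t)) h1
  rw [← matL_getM hX, shear_matL (Nat.zero_le t) h0, bitop_matL' ht hn,
    shear_matL (Nat.zero_le _) h1]
  refine matL_congr fun i s _ hs => ?_
  have h4 := mod_two_pow_le_mod (Nat.zero_le t) s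
  have h5 : s % 2 ^ t ≤ s % 2 ^ (t + 1) := mod_two_pow_le_mod (Nat.le_succ t) s
  have h6 : s % 2 ^ (t + 1) ≤ s := Nat.mod_le _ _
  rw [colShift_colShift _ _ _ (by simp only [dig]; omega)]
  simp only [colShift, dig]
  have e : s % 2 ^ (t + 1) - s % 2 ^ t + (s % 2 ^ t - s % 2 ^ 0) = s % 2 ^ (t + 1) - s % 2 ^ 0 := by
    omega
  rw [e]

/-- the bit operations `0, 1, ..., t-1`, in this order -/
def bitsUp (n : ℕ) : ℕ → List Bool → List Bool
  | 0, X => X
  | t + 1, X => E.bitop n t (bitsUp n t X)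

/-- the bit operations `t-1, ..., 1, 0`, in this order -/
def bitsDown (n : ℕ) : ℕ → List Bool → List Bool
  | 0, X => X
  | t + 1, X => bitsDown n t (E.bitop n t X)

theorem bitsUp_eq_shear {n β : ℕ} {X : List Bool} (hn : 0 < n) (hβ : 2 ^ β ∣ n)
    (hX : X.length = n * n) : bitsUp n β X = E.shear n 0 β X := by
  induction β with
  | zero => rw [bitsUp, shear_refl (by rw [pow_zero]; exact hn) hX]
  | succ t ih =>
    rw [bitsUp, ih (dvd_trans (pow_dvd_pow 2 (Nat.le_succ t)) hβ), bitop_shear_low hn hβ hX]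

theorem bitsDown_eq_shear {n β : ℕ} {X : List Bool} (hn : 0 < n) (hβ : 2 ^ β ∣ n)
    (hX : X.length = n * n) : bitsDown n β X = E.shear n 0 β X := by
  induction β generalizing X with
  | zero => rw [bitsDown, shear_refl (by rw [pow_zero]; exact hn) hX]
  | succ t ih =>
    rw [bitsDown, bitop_eq_shear' hn hβ hX,
      ih (dvd_trans (pow_dvd_pow 2 (Nat.le_succ t)) hβ) (shear_len _ _ _ _),
      shear_shear (Nat.zero_le t) (Nat.le_succ t) (two_pow_le_of_dvd hβ hn) hX]

theorem shearHi_matL {b p : ℕ} (hb : 0 < b) (hp : 1 < p) (Y : ℕ → ℕ → Bool) :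
    D.shearHi b p (matL ((p - 1) * b) Y) =
      matL ((p - 1) * b) (colShift ((p - 1) * b) (fun c => c / b * b) Y) := by
  have hn : 0 < (p - 1) * b := Nat.mul_pos (by omega) hb
  unfold D.shearHi
  simp only
  conv_rhs => unfold matL
  refine cat_congr fun i _ => ?_
  rw [← tab_eq_cat]
  exact tab_congr fun s hs => matL_getD (Nat.mod_lt _ hn) hs Y

theorem length_shearHi (b p : ℕ) (X : List Bool) :
    (D.shearHi b p X).length = (p - 1) * b * ((p - 1) * b) :=
  cat_length fun _ _ => by simp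

/-- **Transposition of stage 2**: rotation, shear of the high digits, shear of the low digits,
rotation. -/
theorem rot2_shear_shearHi_rot1 {n p β : ℕ} (hn : n = (p - 1) * 2 ^ β) (hp : 1 < p)
    (Y : ℕ → ℕ → Bool) :
    E.rot2 n (E.shear n 0 β (D.shearHi (2 ^ β) p (E.rot1 n (matL n Y)))) =
      matL n fun j i => Y i j := by
  have hb : 0 < 2 ^ β := Nat.two_pow_pos β
  have hn0 : 0 < n := by rw [hn]; exact Nat.mul_pos (by omega) hb
  have hle : 2 ^ β ≤ n := two_pow_le_of_dvd ⟨p - 1, by rw [hn, Nat.mul_comm]⟩ hn0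
  subst hn
  rw [rot1_matL, shearHi_matL hb hp, shear_matL (Nat.zero_le _) hle, rot2_matL]
  refine matL_congr fun j i hj hi => ?_
  rw [← rotOut_colShift_rotIn Y hi hj]
  simp only [rotOut]
  set s := (i + j + 1) % ((p - 1) * 2 ^ β) with hs
  have hsn : s < (p - 1) * 2 ^ β := Nat.mod_lt _ hn0
  have h1 : s / 2 ^ β * 2 ^ β + s % 2 ^ β = s := by
    rw [Nat.mul_comm]; exact Nat.div_add_mod s (2 ^ β)
  rw [colShift_colShift _ _ _ (by simp only [dig, pow_zero, Nat.mod_one, Nat.sub_zero]; omega)]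
  simp only [colShift, dig, pow_zero, Nat.mod_one, Nat.sub_zero]
  have e : s % 2 ^ β + s / 2 ^ β * 2 ^ β = s := by omega
  rw [e]

/-- the same with the shear of the low digits first -/
theorem rot2_shearHi_shear_rot1 {n p β : ℕ} (hn : n = (p - 1) * 2 ^ β) (hp : 1 < p)
    (Y : ℕ → ℕ → Bool) :
    E.rot2 n (D.shearHi (2 ^ β) p (E.shear n 0 β (E.rot1 n (matL n Y)))) =
      matL n fun j i => Y i j := by
  have hb : 0 < 2 ^ β := Nat.two_pow_pos β
  have hn0 : 0 < n := by rw [hn]; exact Nat.mul_pos (by omega) hb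
  have hle : 2 ^ β ≤ n := two_pow_le_of_dvd ⟨p - 1, by rw [hn, Nat.mul_comm]⟩ hn0
  subst hn
  rw [rot1_matL, shear_matL (Nat.zero_le _) hle, shearHi_matL hb hp, rot2_matL]
  refine matL_congr fun j i hj hi => ?_
  rw [← rotOut_colShift_rotIn Y hi hj]
  simp only [rotOut]
  set s := (i + j + 1) % ((p - 1) * 2 ^ β) with hs
  have hsn : s < (p - 1) * 2 ^ β := Nat.mod_lt _ hn0
  have h1 : s / 2 ^ β * 2 ^ β + s % 2 ^ β = s := by
    rw [Nat.mul_comm]; exact Nat.div_add_mod s (2 ^ β)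
  rw [colShift_colShift _ _ _ (by simp only [dig, pow_zero, Nat.mod_one, Nat.sub_zero]; omega)]
  simp only [colShift, dig, pow_zero, Nat.mod_one, Nat.sub_zero]
  rw [h1]

/-- **Transposition of stage 2 with bit operations**, in the order: rotation, fast shear, bit
operations `t = 0, ..., β-1`, rotation. -/
theorem transD {n p β : ℕ} (hn : n = (p - 1) * 2 ^ β) (hp : 1 < p) (Y : ℕ → ℕ → Bool) :
    E.rot2 n (bitsUp n β (D.shearHi (2 ^ β) p (E.rot1 n (matL n Y)))) =
      matL n fun j i => Y i j := by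
  have hb : 0 < 2 ^ β := Nat.two_pow_pos β
  have hn0 : 0 < n := by rw [hn]; exact Nat.mul_pos (by omega) hb
  rw [bitsUp_eq_shear hn0 ⟨p - 1, by rw [hn, Nat.mul_comm]⟩ (by rw [length_shearHi, hn]),
    rot2_shear_shearHi_rot1 hn hp]

/-- the same, bit operations in the order `t = β-1, ..., 0` -/
theorem transD' {n p β : ℕ} (hn : n = (p - 1) * 2 ^ β) (hp : 1 < p) (Y : ℕ → ℕ → Bool) :
    E.rot2 n (bitsDown n β (D.shearHi (2 ^ β) p (E.rot1 n (matL n Y)))) =
      matL n fun j i => Y i j := by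
  have hb : 0 < 2 ^ β := Nat.two_pow_pos β
  have hn0 : 0 < n := by rw [hn]; exact Nat.mul_pos (by omega) hb
  rw [bitsDown_eq_shear hn0 ⟨p - 1, by rw [hn, Nat.mul_comm]⟩ (by rw [length_shearHi, hn]),
    rot2_shear_shearHi_rot1 hn hp]

end Vale.Agent.P338.H811
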