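import Vale.Agent.P338.H811.FastD1
import Vale.Agent.P338.H930.ChirpD

/-!
Stage 2: the fast operation in the prime field is the shear of the high digits of the columns.
-/

namespace Vale.Agent.P338.H811

open Finset Vale.Agent.P338

/-- a group of slots: `K` rows of data and `K` rows of zeros -/
theorem groupD {n K W : ℕ} (F : ℕ → ℕ → ℕ) :
    (cat K fun i => cat n fun w => lbits W (F i w)) ++ zer (K * (n * W)) =
      cat (2 * K) fun r => cat n fun w => lbits W (if r < K then F r w else 0) := by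
  have e : 2 * K = K + K := by ring
  rw [e, cat_add]
  congr 1
  · refine cat_congr fun r hr => cat_congr fun w _ => ?_
    rw [if_pos hr]
  · rw [zer_mul]
    refine cat_congr fun r _ => ?_
    rw [zer_mul]
    refine cat_congr fun w _ => ?_
    rw [if_neg (by omega), lbits_zero_zer]

theorem mulS_eq {W : ℕ} (t : ℕ) {v : ℕ} (hv : v < 2 ^ W) :
    D.mulS W t (lbits (2 * W) v) = lbits (2 * W) (t * v) := by
  rw [D.mulS, take_lbits (by omega), lval_lbits_of_lt hv]

theorem mulS_true {W b : ℕ} (t : ℕ) {x : List Bool} (hx : x.length = b) (hb : b + 1 ≤ W) :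
    D.mulS W t (true :: x) = lbits (2 * W) (t * (2 * lval x + 1)) := by
  rw [D.mulS, List.take_of_length_le (by simp; omega), lval_cons]
  congr 2
  simp
  ring

theorem drop_lbits {a k v : ℕ} (h : a ≤ k) :
    (lbits k v).drop a = lbits (k - a) (v / 2 ^ a) := by
  obtain ⟨e, rfl⟩ := Nat.exists_eq_add_of_le h
  rw [lbits_add, List.drop_left' (length_lbits _ _), Nat.add_sub_cancel_left]

theorem ext3_eq {W b p t v : ℕ} (hb : b ≤ W) (hv : v < 2 ^ W) (htv : t * v < 2 ^ W) :
    D.ext3 W b p t (lbits (2 * W) v) =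
      lbits b (t * v * (2 ^ W / p) / 2 ^ (W - b) % 2 ^ b) := by
  rw [D.ext3, mulS_eq t hv, mulS_eq _ htv, drop_lbits (by omega), take_lbits (by omega),
    lbits_mod, Nat.mul_comm (2 ^ W / p)]

theorem f1D_eq {W b p om : ℕ} (hb : b + 1 ≤ W) {x : ℕ → ℕ → List Bool}
    (hx : ∀ i < p - 1, ∀ w < (p - 1) * b, (x i w).length = b) :
    D.f1 W b p om x = slots (2 * W) (1 * (2 * (p - 1)) * ((p - 1) * b))
      (grid3 ((p - 1) * b) (2 * (p - 1)) fun g r w =>
        if r < p - 1 ∧ g < 1 then D.T1 p om r * (2 * lval (x r w) + 1) else 0) := by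
  rw [slots_grid3, cat_one, D.f1, cat_congr (n := p - 1) (g := fun i => cat ((p - 1) * b) fun w =>
    lbits (2 * W) (D.T1 p om i * (2 * lval (x i w) + 1))), groupD]
  · refine cat_congr fun r _ => cat_congr fun w _ => ?_
    simp
  · intro i hi
    refine cat_congr fun w hw => ?_
    rw [mulS_true _ (hx i hi w hw) hb]

theorem f2D_eq {W b p om : ℕ} {y : ℕ → ℕ → List Bool} {v : ℕ → ℕ → ℕ}
    (hy : ∀ k < p - 1, ∀ w < (p - 1) * b, y (p - 1 + k) w = lbits (2 * W) (v k w))
    (hv : ∀ k < p - 1, ∀ w < (p - 1) * b, v k w < 2 ^ W) :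
    D.f2 W b p om y = slots (2 * W) (1 * (2 * (p - 1)) * ((p - 1) * b))
      (grid3 ((p - 1) * b) (2 * (p - 1)) fun g r w =>
        if r < p - 1 ∧ g < 1 then D.T2 p om r (w % (p - 1)) * v r w else 0) := by
  rw [slots_grid3, cat_one, D.f2, cat_congr (n := p - 1) (g := fun i => cat ((p - 1) * b) fun w =>
    lbits (2 * W) (D.T2 p om i (w % (p - 1)) * v i w)), groupD]
  · refine cat_congr fun r _ => cat_congr fun w _ => ?_
    simp
  · intro k hk
    rw [Nat.mul_comm (p - 1) b, cat_mul]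
    refine cat_congr fun w' hw' => cat_congr fun d hd => ?_
    have h1 : w' * (p - 1) + d < (p - 1) * b := by
      calc w' * (p - 1) + d < w' * (p - 1) + (p - 1) := by omega
        _ = (p - 1) * (w' + 1) := by ring
        _ ≤ (p - 1) * b := Nat.mul_le_mul_left _ hw'
    have h2 : (w' * (p - 1) + d) % (p - 1) = d := by
      rw [Nat.mul_comm, Nat.mul_add_mod, Nat.mod_eq_of_lt hd]
    rw [hy k hk _ h1, mulS_eq _ (hv k hk _ h1), h2]

theorem kernelD_eq {W b p : ℕ} (hn : 0 < (p - 1) * b) {h : ℕ → ℕ} (hh : ∀ m, h m < 2 ^ W) :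
    D.kernel W b p h =
      slots (2 * W) ((p - 1) * b * (2 * (p - 1))) (kern ((p - 1) * b) h) := by
  rw [D.kernel]
  obtain ⟨n', hn'⟩ : ∃ n', (p - 1) * b = n' + 1 := ⟨(p - 1) * b - 1, by omega⟩
  rw [hn', slots_mul]
  change cat _ _ = cat _ _
  refine cat_congr fun m _ => ?_
  rw [slots_succ', slots_congr (g := fun _ => 0), slots_const_zero]
  · have h1 : kern (n' + 1) h ((n' + 1) * m + 0) = h m := by
      rw [kern, Nat.add_zero, if_pos (Nat.mul_mod_right _ _),
        Nat.mul_div_cancel_left _ (Nat.succ_pos _)]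
    have h3 : 2 * W = W + W := by ring
    have h4 : lbits (2 * W) (h m) = lbits W (h m) ++ zer W := by
      rw [h3, lbits_pad (hh m)]
      rfl
    rw [h1, h4]
    have h6 : (n' + 1) * (2 * W) - W = W + 2 * W * n' := by
      have : (n' + 1) * (2 * W) = W + 2 * W * n' + W := by ring
      omega
    rw [h6, zer_add, List.append_assoc]
    rfl
  · intro q hq
    have : ((n' + 1) * m + (q + 1)) % (n' + 1) = q + 1 := by
      rw [Nat.mul_add_mod, Nat.mod_eq_of_lt (by omega)]
    rw [kern, if_neg (by omega)]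

/-- **One multiplication of stage 2.** -/
theorem mul_windowD {W b p m l a : ℕ} {h : ℕ → ℕ} {F : ℕ → ℕ → ℕ → ℕ} (hb : 0 < b)
    (hp : 1 < p) (hl : p ≤ 2 ^ l) (hh : ∀ i, h i < p) (hF : ∀ g r w, F g r w < 2 ^ a)
    (ha : 2 * l + a ≤ W) (hF0 : ∀ g r w, p - 1 ≤ r → F g r w = 0)
    (hFG : ∀ g r w, 1 ≤ g → F g r w = 0) (hm : 4 * (p - 1) * ((p - 1) * b) * W ≤ m)
    {k w : ℕ} (hk : k < p - 1) (hw : w < (p - 1) * b) :
    D.slotsOf W b p (mulL m (fillTo m (slots (2 * W) (1 * (2 * (p - 1)) * ((p - 1) * b))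
      (grid3 ((p - 1) * b) (2 * (p - 1)) F))) (fillTo m (D.kernel W b p h))) (p - 1 + k) w =
      lbits (2 * W) (∑ i ∈ range (p - 1), h (p - 1 + k - i) * F 0 i w) := by
  have hK : 0 < p - 1 := by omega
  have hR : 0 < (p - 1) * b := Nat.mul_pos hK hb
  have hlt : ∀ i, h i < 2 ^ W := fun i => lt_of_lt_of_le (hh i)
    (hl.trans (Nat.pow_le_pow_right (by norm_num) (by omega)))
  rw [mulL, lval_fillTo, lval_fillTo, kernelD_eq hR hlt]
  have hmain := mul_windowG (R := (p - 1) * b) (K := p - 1) (G := 1) (W := 2 * W) (N := 2 * m)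
    (H := p - 1) (B := 2 ^ a - 1) (h := h) (F := F) hR hK (fun i => by have := hh i; omega)
    (lt_of_lt_of_le (by omega : p - 1 < 2 ^ l) (Nat.pow_le_pow_right (by norm_num) (by omega)))
    (fun g r w => by have := hF g r w; omega)
    (lt_of_lt_of_le (by have := Nat.two_pow_pos a; omega : 2 ^ a - 1 < 2 ^ a)
      (Nat.pow_le_pow_right (by norm_num) (by omega)))
    (by
      have h1 : (p - 1) * ((p - 1) * (2 ^ a - 1)) ≤ 2 ^ l * (2 ^ l * (2 ^ a - 1)) :=
        Nat.mul_le_mul (by omega) (Nat.mul_le_mul_right _ (by omega))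
      have h2 : 2 ^ l * (2 ^ l * (2 ^ a - 1)) < 2 ^ l * (2 ^ l * 2 ^ a) := by
        have := Nat.two_pow_pos a
        exact Nat.mul_lt_mul_of_pos_left (Nat.mul_lt_mul_of_pos_left (by omega) (Nat.two_pow_pos l))
          (Nat.two_pow_pos l)
      have h3 : 2 ^ l * (2 ^ l * 2 ^ a) = 2 ^ (2 * l + a) := by
        rw [← pow_add, ← pow_add]; congr 1; omega
      rw [h3] at h2
      exact lt_of_le_of_lt h1 (lt_of_lt_of_le h2 (Nat.pow_le_pow_right (by norm_num) (by omega))))
    hF0 hFG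
    (by
      have : 2 * W * (1 * (2 * (p - 1)) * ((p - 1) * b) + (p - 1) * b * (2 * (p - 1))) =
          2 * (4 * (p - 1) * ((p - 1) * b) * W) := by ring
      rw [this]; omega)
    (g := 0) (k := k) (w := w) Nat.one_pos hk hw
  rw [Nat.zero_mul, Nat.zero_add] at hmain
  exact hmain

theorem length_wordsOfD {b p : ℕ} {X : List Bool}
    (hX : X.length = (p - 1) * b * ((p - 1) * b)) {i w : ℕ} (hi : i < p - 1)
    (hw : w < (p - 1) * b) : (D.wordsOf b p X i w).length = b := by
  change (seg X _ b).length = b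
  refine length_seg ?_
  rw [hX]
  calc (i * ((p - 1) * b) + w) * b + b = (i * ((p - 1) * b) + (w + 1)) * b := by ring
    _ ≤ (i * ((p - 1) * b) + (p - 1) * b) * b := Nat.mul_le_mul_right _ (by omega)
    _ = (i + 1) * ((p - 1) * b) * b := by ring
    _ ≤ (p - 1) * ((p - 1) * b) * b :=
      Nat.mul_le_mul_right _ (Nat.mul_le_mul_right _ hi)
    _ = (p - 1) * b * ((p - 1) * b) := by ring

theorem lval_wordsOfD_lt (b p : ℕ) (X : List Bool) (i w : ℕ) :
    lval (D.wordsOf b p X i w) < 2 ^ b :=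
  lt_of_lt_of_le (lval_lt _) (Nat.pow_le_pow_right (by norm_num) (List.length_take_le _ _))

/-- **Stage 2**: `D.fast` is the shear of the high digits. -/
theorem fastD_eq_shearHi {p : ℕ} [hp : Fact p.Prime] {om : ℕ} {g : (ZMod p)ˣ} {b l W m : ℕ}
    (hg : (g : ZMod p) = (om : ZMod p)) (hord : orderOf g = p - 1) (hb : 0 < b)
    (hl : p ≤ 2 ^ l) (hbl : b + 1 ≤ l) (hW : 10 * l ≤ W) (hbp : 2 ^ (2 * b + 3) ≤ p)
    (hm : 4 * (p - 1) * ((p - 1) * b) * W ≤ m) {X : List Bool}
    (hX : X.length = (p - 1) * b * ((p - 1) * b)) :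
    D.fast m W b p om X = D.shearHi b p X := by
  have hp1 : 1 < p := hp.out.one_lt
  have hp0 : 0 < p := by omega
  have hs : 0 < p - 1 := by omega
  -- columns
  set x : ℕ → ℕ → ℕ := fun w i => lval (D.wordsOf b p X i w) with hx
  have hxlt : ∀ w i, x w i < 2 ^ b := fun w i => lval_wordsOfD_lt b p X i w
  set y : ℕ → ℕ → ℕ := fun w i => 2 * x w i + 1 with hy
  have hylt : ∀ w i, y w i < 2 ^ (b + 1) := by
    intro w i
    have := hxlt w i
    simp only [hy]
    rw [pow_succ]; omega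
  have hlW : ∀ c, c ≤ 10 * l → 2 ^ c ≤ 2 ^ W := fun c hc =>
    Nat.pow_le_pow_right (by norm_num) (by omega)
  rw [D.fast]
  -- first operand
  set F1 : ℕ → ℕ → ℕ → ℕ := fun g r w =>
    if r < p - 1 ∧ g < 1 then D.u1 p om (y w) r else 0 with hF1
  have hf1 : D.f1 W b p om (D.wordsOf b p X) =
      slots (2 * W) (1 * (2 * (p - 1)) * ((p - 1) * b))
        (grid3 ((p - 1) * b) (2 * (p - 1)) F1) := by
    rw [f1D_eq (by omega) fun i hi w hw => length_wordsOfD hX hi hw]
    rfl
  set P1 := mulL m (fillTo m (D.f1 W b p om (D.wordsOf b p X)))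
    (fillTo m (D.kernel W b p (D.H1 p om))) with hP1
  have hw1 : ∀ k < p - 1, ∀ w < (p - 1) * b, D.slotsOf W b p P1 (p - 1 + k) w =
      lbits (2 * W) (D.c1 p om (y w) k) := by
    intro k hk w hw
    rw [hP1, hf1, mul_windowD (l := l) (a := l + (b + 1)) hb hp1 hl (fun i => D.H1_lt hp0 i) _
      (by omega) _ _ hm hk hw]
    · congr 1
      rw [D.c1]
      refine sum_congr rfl fun i hi => ?_
      have hi' := mem_range.1 hi
      simp only [hF1]
      rw [if_pos ⟨hi', Nat.one_pos⟩]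
    · intro g r w
      simp only [hF1]
      split_ifs
      · exact D.u1_lt hp0 hl (hylt w) r
      · exact Nat.two_pow_pos _
    · intro g r w hr
      simp only [hF1]
      rw [if_neg (by rintro ⟨h1, -⟩; omega)]
    · intro g r w hg'
      simp only [hF1]
      rw [if_neg (by rintro ⟨-, h1⟩; omega)]
  -- second operand
  set F2 : ℕ → ℕ → ℕ → ℕ := fun g r w =>
    if r < p - 1 ∧ g < 1 then D.u2 p om (w % (p - 1)) (y w) r else 0 with hF2
  have hf2 : D.f2 W b p om (D.slotsOf W b p P1) =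
      slots (2 * W) (1 * (2 * (p - 1)) * ((p - 1) * b))
        (grid3 ((p - 1) * b) (2 * (p - 1)) F2) := by
    rw [f2D_eq hw1 fun k _ w _ => lt_of_lt_of_le (D.c1_lt hp0 hl (hylt w) k) (hlW _ (by omega))]
    rfl
  set P2 := mulL m (fillTo m (D.f2 W b p om (D.slotsOf W b p P1)))
    (fillTo m (D.kernel W b p (D.H2 p om))) with hP2
  have hw2 : ∀ j < p - 1, ∀ w < (p - 1) * b, D.slotsOf W b p P2 (p - 1 + j) w =
      lbits (2 * W) (D.c2 p om (w % (p - 1)) (y w) j) := by
    intro k hk w hw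
    rw [hP2, hf2, mul_windowD (l := l) (a := 4 * l + (b + 1)) hb hp1 hl (fun i => D.H2_lt hp0 i) _
      (by omega) _ _ hm hk hw]
    · congr 1
      rw [D.c2]
      refine sum_congr rfl fun i hi => ?_
      have hi' := mem_range.1 hi
      simp only [hF2]
      rw [if_pos ⟨hi', Nat.one_pos⟩]
    · intro g r w
      simp only [hF2]
      split_ifs
      · exact D.u2_lt hp0 hl (hylt w) _ r
      · exact Nat.two_pow_pos _
    · intro g r w hr
      simp only [hF2]
      rw [if_neg (by rintro ⟨h1, -⟩; omega)]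
    · intro g r w hg'
      simp only [hF2]
      rw [if_neg (by rintro ⟨-, h1⟩; omega)]
  -- last pass
  have hlast : D.f3 W b p om (D.slotsOf W b p P2) =
      cat (p - 1) fun j => cat ((p - 1) * b) fun w =>
        seg X ((src (p - 1) j (w % (p - 1)) * ((p - 1) * b) + w) * b) b := by
    rw [D.f3]
    refine cat_congr fun j hj => cat_congr fun w hw => ?_
    rw [hw2 j hj w hw]
    have hd : w % (p - 1) < p - 1 := Nat.mod_lt _ hs
    have hi : src (p - 1) j (w % (p - 1)) < p - 1 := Nat.mod_lt _ hs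
    have hdvd : ((p : ℤ) - 1) ∣ ((src (p - 1) j (w % (p - 1)) : ℕ) : ℤ) + (w % (p - 1) : ℕ) - j := by
      have hcast : ((p - 1 : ℕ) : ℤ) = (p : ℤ) - 1 := by push_cast [hp0]; ring
      rw [← hcast, src]
      have h1 : ((j + (p - 1) - w % (p - 1) : ℕ) : ℤ) =
          (j : ℤ) + ((p - 1 : ℕ) : ℤ) - ((w % (p - 1) : ℕ) : ℤ) := by
        rw [Nat.cast_sub (by omega), Nat.cast_add]
      have h2 := Int.emod_add_mul_ediv ((j + (p - 1) - w % (p - 1) : ℕ) : ℤ) ((p - 1 : ℕ) : ℤ)
      rw [Int.natCast_mod]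
      refine ⟨1 - ((j + (p - 1) - w % (p - 1) : ℕ) : ℤ) / ((p - 1 : ℕ) : ℤ), ?_⟩
      rw [h1] at h2 ⊢
      linear_combination h2
    have hu3 : D.T3 p om b j * D.c2 p om (w % (p - 1)) (y w) j =
        D.u3 p om b (w % (p - 1)) (y w) j := rfl
    have hu3lt := D.u3_lt (om := om) hp0 hl (hylt w) (w % (p - 1)) j
    rw [ext3_eq (by omega) (lt_of_lt_of_le (D.c2_lt hp0 hl (hylt w) _ j) (hlW _ (by omega)))
      (by rw [hu3]; exact lt_of_lt_of_le hu3lt (hlW _ (by omega))), hu3]
    have hex := D.extract_u3 (W := W) (l := l) (b := b) hg hord hl hbl hW hbp (hxlt w) hi hdvd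
    have hey : (fun i => 2 * x w i + 1) = y w := rfl
    rw [hey] at hex
    rw [hex]
    simp only [hx]
    have hlen := length_wordsOfD hX hi hw
    have := lbits_lval (D.wordsOf b p X (src (p - 1) j (w % (p - 1))) w)
    rw [hlen] at this
    rw [this]
    rfl
  change D.f3 W b p om (D.slotsOf W b p P2) = _
  rw [hlast]
  -- reorganisation
  have hwg := wshear_gen (n := (p - 1) * b) (b := b) (G := 1) (D := p - 1) hb Nat.one_pos hs
    (by ring) hX
  rw [D.shearHi]
  simp only [Nat.one_mul, Nat.mul_one] at hwg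
  have hl1 : (cat (p - 1) fun j => cat ((p - 1) * b) fun w =>
        seg X ((src (p - 1) j (w % (p - 1)) * ((p - 1) * b) + w) * b) b) =
      cat (p - 1) fun I => cat b fun w' => cat (p - 1) fun d =>
        seg X ((src (p - 1) I d * ((p - 1) * b) + (w' * (p - 1) + d)) * b) b := by
    refine cat_congr fun j _ => ?_
    conv_lhs => rw [Nat.mul_comm (p - 1) b, cat_mul]
    refine cat_congr fun w' _ => cat_congr fun d hd => ?_
    have h2 : (w' * (p - 1) + d) % (p - 1) = d := by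
      rw [Nat.mul_comm, Nat.mul_add_mod, Nat.mod_eq_of_lt hd]
    rw [h2, Nat.mul_comm b (p - 1)]
  rw [hl1, hwg]
  refine cat_congr fun i _ => List.map_congr_left fun c hc => ?_
  have hc' := List.mem_range.1 hc
  have h1 : c / b < p - 1 := (Nat.div_lt_iff_lt_mul hb).2 hc'
  have h2 : c / b * b < (p - 1) * b := lt_of_le_of_lt (Nat.div_mul_le_self c b) hc'
  rw [Nat.mod_eq_of_lt h1, Nat.mod_eq_of_lt h2]

end Vale.Agent.P338.H811
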