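import Vale.Agent.P338.CoreSpec

/-!
Bit lists (least significant bit first), slots of width `W`, and Kronecker products: one integer
product of two concatenations of slots is the concatenation of the convolution, when no slot
overflows.
-/

namespace Vale.Agent.P338.H811

@[simp] theorem lval_nil : lval [] = 0 := rfl
@[simp] theorem lval_cons (b : Bool) (l : List Bool) : lval (b :: l) = b.toNat + 2 * lval l := rfl
@[simp] theorem lbits_zero (n : ℕ) : lbits 0 n = [] := rfl
@[simp] theorem lbits_succ (k n : ℕ) : lbits (k + 1) n = (n % 2 == 1) :: lbits k (n / 2) := rfl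

@[simp] theorem length_lbits (k n : ℕ) : (lbits k n).length = k := by
  induction k generalizing n with
  | zero => rfl
  | succ k ih => simp [ih]

theorem lval_lt (l : List Bool) : lval l < 2 ^ l.length := by
  induction l with
  | nil => simp
  | cons b l ih =>
    have : b.toNat ≤ 1 := Bool.toNat_le b
    simp only [lval_cons, List.length_cons, pow_succ]
    omega

theorem beq_one_toNat (n : ℕ) : (n % 2 == 1).toNat = n % 2 := by
  rcases Nat.mod_two_eq_zero_or_one n with h | h <;> simp [h]

theorem lval_lbits (k n : ℕ) : lval (lbits k n) = n % 2 ^ k := by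
  induction k generalizing n with
  | zero => simp [Nat.mod_one]
  | succ k ih =>
    rw [lbits_succ, lval_cons, ih, beq_one_toNat, pow_succ', Nat.mod_mul]

theorem lval_lbits_of_lt {k n : ℕ} (h : n < 2 ^ k) : lval (lbits k n) = n := by
  rw [lval_lbits, Nat.mod_eq_of_lt h]

theorem lbits_lval (l : List Bool) : lbits l.length (lval l) = l := by
  induction l with
  | nil => rfl
  | cons b l ih =>
    rw [List.length_cons, lbits_succ, lval_cons]
    have h1 : (b.toNat + 2 * lval l) / 2 = lval l := by
      have := Bool.toNat_le b; omega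
    have h2 : ((b.toNat + 2 * lval l) % 2 == 1) = b := by
      cases b <;> simp
    rw [h1, h2, ih]

theorem lval_append (l₁ l₂ : List Bool) :
    lval (l₁ ++ l₂) = lval l₁ + 2 ^ l₁.length * lval l₂ := by
  induction l₁ with
  | nil => simp
  | cons b l ih =>
    simp only [List.cons_append, lval_cons, ih, List.length_cons, pow_succ]
    ring

theorem lbits_add (k l n : ℕ) : lbits (k + l) n = lbits k n ++ lbits l (n / 2 ^ k) := by
  induction k generalizing n with
  | zero => simp
  | succ k ih =>
    rw [Nat.succ_add, lbits_succ, ih, lbits_succ, List.cons_append, Nat.div_div_eq_div_mul,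
      pow_succ']

theorem lbits_mod (k n : ℕ) : lbits k (n % 2 ^ k) = lbits k n := by
  rw [← lval_lbits]
  have := lbits_lval (lbits k n)
  rwa [length_lbits] at this

@[simp] theorem lval_replicate_false (k : ℕ) : lval (List.replicate k false) = 0 := by
  induction k with
  | zero => rfl
  | succ k ih => simp [List.replicate_succ, ih]

@[simp] theorem lbits_zero_right (k : ℕ) : lbits k 0 = List.replicate k false := by
  induction k with
  | zero => rfl
  | succ k ih => simp [List.replicate_succ, ih]

/-- lists of equal length with equal values are equal -/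
theorem lval_inj {l₁ l₂ : List Bool} (h : l₁.length = l₂.length) (h' : lval l₁ = lval l₂) :
    l₁ = l₂ := by
  rw [← lbits_lval l₁, ← lbits_lval l₂, h, h']

/-- `lbits` of a number that fits, padded -/
theorem lbits_pad {k m n : ℕ} (h : n < 2 ^ k) :
    lbits (k + m) n = lbits k n ++ List.replicate m false := by
  rw [lbits_add, Nat.div_eq_of_lt h, lbits_zero_right]

/-- multiplication by a power of two is placing at an offset -/
theorem lbits_shift {a k m x : ℕ} (h : x < 2 ^ k) :
    lbits (a + k + m) (2 ^ a * x) =
      List.replicate a false ++ lbits k x ++ List.replicate m false := by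
  rw [Nat.add_assoc, lbits_add, Nat.mul_div_cancel_left _ (Nat.two_pow_pos a), lbits_pad h,
    List.append_assoc]
  congr 1
  rw [← lbits_mod, Nat.mul_mod_right, lbits_zero_right]

/-- concatenation of the slots `f 0, …, f (n-1)`, each of width `W` -/
def slots (W : ℕ) (n : ℕ) (f : ℕ → ℕ) : List Bool :=
  (List.range n).flatMap fun p => lbits W (f p)

@[simp] theorem slots_zero (W : ℕ) (f : ℕ → ℕ) : slots W 0 f = [] := rfl

theorem slots_succ (W n : ℕ) (f : ℕ → ℕ) : slots W (n + 1) f = slots W n f ++ lbits W (f n) := by
  simp [slots, List.range_succ, List.flatMap_append]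

theorem slots_succ' (W n : ℕ) (f : ℕ → ℕ) :
    slots W (n + 1) f = lbits W (f 0) ++ slots W n (fun p => f (p + 1)) := by
  simp only [slots, List.range_succ_eq_map, List.flatMap_cons, List.flatMap_map]

@[simp] theorem length_slots (W n : ℕ) (f : ℕ → ℕ) : (slots W n f).length = W * n := by
  induction n with
  | zero => simp
  | succ n ih => rw [slots_succ, List.length_append, ih, length_lbits]; ring

theorem slots_add (W m n : ℕ) (f : ℕ → ℕ) :
    slots W (m + n) f = slots W m f ++ slots W n (fun p => f (m + p)) := by
  induction n with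
  | zero => simp
  | succ n ih => rw [← Nat.add_assoc, slots_succ, ih, slots_succ, List.append_assoc]

theorem slots_congr {W n : ℕ} {f g : ℕ → ℕ} (h : ∀ p < n, f p = g p) :
    slots W n f = slots W n g := by
  induction n with
  | zero => rfl
  | succ n ih =>
    rw [slots_succ, slots_succ, ih fun p hp => h p (Nat.lt_succ_of_lt hp), h n (Nat.lt_succ_self n)]

theorem slots_const_zero (W n : ℕ) : slots W n (fun _ => 0) = List.replicate (W * n) false := by
  induction n with
  | zero => simp
  | succ n ih => rw [slots_succ, ih, lbits_zero_right, List.replicate_append_replicate]; rfl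

/-- grouping: rows of `R` slots -/
theorem slots_mul (W R n : ℕ) (f : ℕ → ℕ) :
    slots W (R * n) f = (List.range n).flatMap fun r => slots W R (fun p => f (R * r + p)) := by
  induction n with
  | zero => simp
  | succ n ih =>
    rw [Nat.mul_succ, slots_add, ih, List.range_succ, List.flatMap_append]
    simp

/-- value of a concatenation of slots -/
theorem lval_slots {W n : ℕ} {f : ℕ → ℕ} (h : ∀ p < n, f p < 2 ^ W) :
    lval (slots W n f) = ∑ p ∈ Finset.range n, f p * 2 ^ (W * p) := by
  induction n with
  | zero => simp
  | succ n ih =>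
    rw [slots_succ, lval_append, ih fun p hp => h p (Nat.lt_succ_of_lt hp), length_slots,
      lval_lbits_of_lt (h n (Nat.lt_succ_self n)), Finset.sum_range_succ, Nat.mul_comm (2 ^ _)]

/-- a number with given digits in base `2 ^ W` is the concatenation of its digits -/
theorem lbits_sum {W n : ℕ} {f : ℕ → ℕ} (h : ∀ p < n, f p < 2 ^ W) :
    lbits (W * n) (∑ p ∈ Finset.range n, f p * 2 ^ (W * p)) = slots W n f := by
  have h1 := lbits_lval (slots W n f)
  rwa [lval_slots h, length_slots] at h1

/-- the convolution of the slots `u` with the kernel `h` placed at stride `R` -/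
def conv (R M : ℕ) (h u : ℕ → ℕ) (q : ℕ) : ℕ :=
  ∑ m ∈ Finset.range M, if R * m ≤ q then h m * u (q - R * m) else 0

/-- kernel as slots: `h m` at position `R * m`, zero elsewhere -/
def kern (R : ℕ) (h : ℕ → ℕ) (q : ℕ) : ℕ := if q % R = 0 then h (q / R) else 0

theorem sum_kern {W R M : ℕ} (hR : 0 < R) (h : ℕ → ℕ) :
    ∑ q ∈ Finset.range (R * M), kern R h q * 2 ^ (W * q) =
      ∑ m ∈ Finset.range M, h m * 2 ^ (W * (R * m)) := by
  induction M with
  | zero => simp
  | succ M ih =>
    rw [Nat.mul_succ, Finset.sum_range_add, ih, Finset.sum_range_succ]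
    congr 1
    rw [Finset.sum_eq_single_of_mem 0 (Finset.mem_range.2 hR)]
    · simp [kern, Nat.mul_div_cancel_left _ hR]
    · intro p hp hp0
      have hpR := Finset.mem_range.1 hp
      have : (R * M + p) % R ≠ 0 := by
        rw [Nat.mul_add_mod, Nat.mod_eq_of_lt hpR]
        exact hp0
      rw [kern, if_neg this, zero_mul]

/-- **Kronecker product.** If `u` vanishes outside `[0,P)`, `Q ≥ P + R * M`, and no coefficient of
the convolution overflows its slot, then the product of the two numbers is the concatenation of the
slots of the convolution. -/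
theorem sum_mul_sum_eq_conv {W R M P Q : ℕ} {h u : ℕ → ℕ} (hu : ∀ p, P ≤ p → u p = 0)
    (hQ : P + R * M ≤ Q) :
    (∑ p ∈ Finset.range P, u p * 2 ^ (W * p)) *
      (∑ m ∈ Finset.range M, h m * 2 ^ (W * (R * m))) =
      ∑ q ∈ Finset.range Q, conv R M h u q * 2 ^ (W * q) := by
  have key : ∀ m ∈ Finset.range M,
      (∑ q ∈ Finset.range Q, (if R * m ≤ q then h m * u (q - R * m) else 0) * 2 ^ (W * q)) =
      (∑ p ∈ Finset.range P, u p * 2 ^ (W * p)) * (h m * 2 ^ (W * (R * m))) := by
    intro m hm
    have hm' : R * m ≤ R * M := Nat.mul_le_mul_left R (Finset.mem_range.1 hm).le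
    obtain ⟨e, he⟩ : ∃ e, Q = R * m + (P + e) := ⟨Q - (R * m + P), by omega⟩
    rw [he, Finset.sum_range_add, Finset.sum_range_add, Finset.sum_eq_zero, zero_add]
    · rw [Finset.sum_eq_zero (s := Finset.range e), add_zero, Finset.sum_mul]
      · refine Finset.sum_congr rfl fun p _ => ?_
        rw [if_pos (Nat.le_add_right _ _), Nat.add_sub_cancel_left, Nat.mul_add, pow_add]
        ring
      · intro p _
        rw [if_pos (by omega), Nat.add_sub_cancel_left, hu _ (Nat.le_add_right _ _)]
        simp
    · intro q hq
      have := Finset.mem_range.1 hq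
      rw [if_neg (by omega), zero_mul]
  rw [Finset.mul_sum, ← Finset.sum_congr rfl key, Finset.sum_comm]
  refine Finset.sum_congr rfl fun q _ => ?_
  rw [conv, Finset.sum_mul]

/-- **Kronecker product on bit lists.** -/
theorem lbits_mul_slots {W R M P Q N : ℕ} {h u : ℕ → ℕ} (hR : 0 < R)
    (hu : ∀ p, P ≤ p → u p = 0) (huW : ∀ p < P, u p < 2 ^ W) (hhW : ∀ m < M, h m < 2 ^ W)
    (hc : ∀ q < Q, conv R M h u q < 2 ^ W) (hQ : P + R * M ≤ Q) (hN : W * Q ≤ N) :
    lbits N (lval (slots W P u) * lval (slots W (R * M) (kern R h))) =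
      slots W Q (conv R M h u) ++ List.replicate (N - W * Q) false := by
  have hk : ∀ q < R * M, kern R h q < 2 ^ W := by
    intro q hq
    unfold kern
    split_ifs with h0
    · exact hhW _ (Nat.div_lt_of_lt_mul hq)
    · exact Nat.two_pow_pos W
  rw [lval_slots huW, lval_slots hk, sum_kern hR, sum_mul_sum_eq_conv hu hQ]
  obtain ⟨e, rfl⟩ := Nat.exists_eq_add_of_le hN
  have hlt : ∑ q ∈ Finset.range Q, conv R M h u q * 2 ^ (W * q) < 2 ^ (W * Q) := by
    rw [← lval_slots hc]
    have := lval_lt (slots W Q (conv R M h u))
    rwa [length_slots] at this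
  rw [lbits_pad hlt, lbits_sum hc, Nat.add_sub_cancel_left]

end Vale.Agent.P338.H811
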