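import Vale.Agent.P338.H811.Bits
import Vale.Agent.P338.H373.Chirp

/-!
Layout of the fast operation (proposal E): groups of `2 K` rows of `R` slots, the first `K` rows of
each group are data, the last `K` rows are zero; kernel of `2 K` rows.  Rows `K, …, 2 K - 1` of each
group of the product are the wanted window.
-/

namespace Vale.Agent.P338.H811

open Finset Vale.Agent.P338.H373

/-- slot position of group `g`, row `r < RB`, column `w < R` -/
def pos3 (R RB g r w : ℕ) : ℕ := (g * RB + r) * R + w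

/-- function on slot positions given by a function of `(g, r, w)` -/
def grid3 (R RB : ℕ) (f : ℕ → ℕ → ℕ → ℕ) (q : ℕ) : ℕ := f (q / R / RB) (q / R % RB) (q % R)

theorem grid3_pos {R RB : ℕ} (f : ℕ → ℕ → ℕ → ℕ) {g r w : ℕ} (hr : r < RB) (hw : w < R) :
    grid3 R RB f (pos3 R RB g r w) = f g r w := by
  have hR : 0 < R := by omega
  have hRB : 0 < RB := by omega
  have h1 : pos3 R RB g r w / R = g * RB + r := by
    rw [pos3, Nat.mul_comm, Nat.mul_add_div hR, Nat.div_eq_of_lt hw, Nat.add_zero]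
  have h2 : pos3 R RB g r w % R = w := by
    rw [pos3, Nat.mul_comm, Nat.mul_add_mod, Nat.mod_eq_of_lt hw]
  have h5 : (g * RB + r) / RB = g := by
    rw [Nat.mul_comm, Nat.mul_add_div hRB, Nat.div_eq_of_lt hr, Nat.add_zero]
  have h6 : (g * RB + r) % RB = r := by
    rw [Nat.mul_comm, Nat.mul_add_mod, Nat.mod_eq_of_lt hr]
  rw [grid3, h1, h2, h5, h6]

theorem exists_pos3 {R RB : ℕ} (hR : 0 < R) (hRB : 0 < RB) (q : ℕ) :
    ∃ g r w, r < RB ∧ w < R ∧ q = pos3 R RB g r w := by
  refine ⟨q / R / RB, q / R % RB, q % R, Nat.mod_lt _ hRB, Nat.mod_lt _ hR, ?_⟩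
  have h1 := Nat.div_add_mod q R
  have h2 := Nat.div_add_mod (q / R) RB
  rw [pos3, Nat.mul_comm (q / R / RB), h2, Nat.mul_comm, h1]

theorem pos3_lt {R RB G g r w : ℕ} (hg : g < G) (hr : r < RB) (hw : w < R) :
    pos3 R RB g r w < G * RB * R := by
  have h1 : g * RB + r + 1 ≤ G * RB := by
    calc g * RB + r + 1 ≤ g * RB + RB := by omega
      _ = (g + 1) * RB := by ring
      _ ≤ G * RB := Nat.mul_le_mul_right _ hg
  calc pos3 R RB g r w < (g * RB + r) * R + R := by rw [pos3]; omega
    _ = (g * RB + r + 1) * R := by ring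
    _ ≤ G * RB * R := Nat.mul_le_mul_right _ h1

theorem grid3_eq_zero {R RB G : ℕ} {f : ℕ → ℕ → ℕ → ℕ} (hR : 0 < R) (hRB : 0 < RB)
    (hf : ∀ g r w, G ≤ g → f g r w = 0) {q : ℕ} (hq : G * RB * R ≤ q) :
    grid3 R RB f q = 0 := by
  obtain ⟨g, r, w, hr, hw, rfl⟩ := exists_pos3 hR hRB q
  rw [grid3_pos f hr hw]
  apply hf
  by_contra hg
  have := pos3_lt (not_le.1 hg) hr hw
  omega

/-- the convolution acts on row indices -/
theorem conv_row {R M : ℕ} (h u : ℕ → ℕ) {ρ w : ℕ} (hw : w < R) :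
    conv R M h u (ρ * R + w) =
      ∑ m ∈ range M, if m ≤ ρ then h m * u ((ρ - m) * R + w) else 0 := by
  rw [conv]
  refine sum_congr rfl fun m _ => ?_
  by_cases hm : m ≤ ρ
  · obtain ⟨e, rfl⟩ := Nat.exists_eq_add_of_le hm
    have e1 : (m + e) * R + w = R * m + (e * R + w) := by ring
    rw [if_pos hm, e1, if_pos (Nat.le_add_right _ _), Nat.add_sub_cancel_left,
      Nat.add_sub_cancel_left]
  · rw [if_neg hm, if_neg]
    have h1 : R * (ρ + 1) ≤ R * m := Nat.mul_le_mul_left _ (by omega)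
    have h2 : R * (ρ + 1) = ρ * R + R := by ring
    omega

/-- **The window.** Rows `K + k`, `k < K`, of each group of the convolution. -/
theorem conv_window {R K : ℕ} (h : ℕ → ℕ) (f : ℕ → ℕ → ℕ → ℕ)
    (hf : ∀ g r w, K ≤ r → f g r w = 0) {g k w : ℕ} (hk : k < K) (hw : w < R) :
    conv R (2 * K) h (grid3 R (2 * K) f) (pos3 R (2 * K) g (K + k) w) =
      ∑ i ∈ range K, h (K + k - i) * f g i w := by
  have hK : 0 < K := by omega
  rw [pos3, conv_row h _ hw]
  -- split the kernel rows: `m ≤ k`, `k < m ≤ K + k`, `K + k < m`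
  have e0 : 2 * K = (k + 1) + (K + (K - (k + 1))) := by omega
  have hsum : ∀ F : ℕ → ℕ, ∑ m ∈ range (2 * K), F m =
      ∑ m ∈ range (k + 1), F m + (∑ m ∈ range K, F (k + 1 + m) +
        ∑ m ∈ range (K - (k + 1)), F (k + 1 + (K + m))) := by
    intro F
    conv_lhs => rw [e0]
    rw [sum_range_add F (k + 1) (K + (K - (k + 1))), sum_range_add _ K (K - (k + 1))]
  rw [hsum, sum_eq_zero, zero_add, sum_eq_zero (s := range (K - (k + 1))), add_zero]
  · rw [← sum_range_reflect]
    refine sum_congr rfl fun i hi => ?_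
    have hi' := mem_range.1 hi
    have e1 : k + 1 + (K - 1 - i) = K + k - i := by omega
    rw [e1, if_pos (by omega)]
    have e2 : g * (2 * K) + (K + k) - (K + k - i) = g * (2 * K) + i := by omega
    rw [e2]
    have := grid3_pos (R := R) (RB := 2 * K) f (g := g) (r := i) (w := w) (by omega) hw
    rw [pos3] at this
    rw [this]
  · intro m hm
    have hm' := mem_range.1 hm
    split_ifs with hle
    · -- previous group
      obtain ⟨g', rfl⟩ : ∃ g', g = g' + 1 := by
        rcases g with _ | g'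
        · omega
        · exact ⟨g', rfl⟩
      have e2 : (g' + 1) * (2 * K) + (K + k) - (k + 1 + (K + m)) =
          g' * (2 * K) + (2 * K - (1 + m)) := by
        have : (g' + 1) * (2 * K) = g' * (2 * K) + 2 * K := by ring
        omega
      rw [e2]
      have := grid3_pos (R := R) (RB := 2 * K) f (g := g') (r := 2 * K - (1 + m)) (w := w)
        (by omega) hw
      rw [pos3] at this
      rw [this, hf _ _ _ (by omega), mul_zero]
    · rfl
  · intro m hm
    have hm' := mem_range.1 hm
    rw [if_pos (by omega)]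
    have e2 : g * (2 * K) + (K + k) - m = g * (2 * K) + (K + k - m) := by omega
    rw [e2]
    have := grid3_pos (R := R) (RB := 2 * K) f (g := g) (r := K + k - m) (w := w) (by omega) hw
    rw [pos3] at this
    rw [this, hf _ _ _ (by omega), mul_zero]

/-- a sum of at most `2 b` bounded products -/
theorem sum_lt_of_card {β a : ℕ} {s : Finset ℕ} (hs : s.card ≤ 2 ^ (β + 1)) {F : ℕ → ℕ}
    (hF : ∀ i ∈ s, F i ≤ 2 ^ (2 * 2 ^ β - 1) * (2 ^ a - 1)) :
    ∑ i ∈ s, F i < 2 ^ (3 * 2 ^ β - 1 + a) := by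
  have h1 := sum_le_card_nsmul s F _ hF
  have h2 := conv_lt β (2 ^ (β + 1)) a le_rfl (fun _ => 2 ^ (2 * 2 ^ β - 1)) (fun _ => 2 ^ a - 1)
    (fun _ => le_rfl) (fun _ => by have : 0 < 2 ^ a := Nat.two_pow_pos a; omega)
  rw [sum_const, card_range, smul_eq_mul] at h2
  rw [smul_eq_mul] at h1
  refine lt_of_le_of_lt (h1.trans ?_) h2
  exact Nat.mul_le_mul_right _ hs

/-- **No slot overflows**: the bound holds at every position of the convolution. -/
theorem conv_grid3_lt {β R a : ℕ} (h : ℕ → ℕ) (f : ℕ → ℕ → ℕ → ℕ) (hR : 0 < R)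
    (hh : ∀ m, h m ≤ 2 ^ (2 * 2 ^ β - 1)) (hfa : ∀ g r w, f g r w < 2 ^ a)
    (hf : ∀ g r w, 2 ^ (β + 1) ≤ r → f g r w = 0) (q : ℕ) :
    conv R (2 * 2 ^ (β + 1)) h (grid3 R (2 * 2 ^ (β + 1)) f) q < 2 ^ (3 * 2 ^ β - 1 + a) := by
  set K := 2 ^ (β + 1) with hKdef
  have hK : 0 < K := Nat.two_pow_pos _
  obtain ⟨ρ, w, hw, rfl⟩ : ∃ ρ w, w < R ∧ q = ρ * R + w :=
    ⟨q / R, q % R, Nat.mod_lt _ hR, by rw [Nat.mul_comm]; exact (Nat.div_add_mod q R).symm⟩
  rw [conv_row h _ hw]
  -- the value of the data at row `ρ'`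
  have hval : ∀ ρ', grid3 R (2 * K) f (ρ' * R + w) = f (ρ' / (2 * K)) (ρ' % (2 * K)) w := by
    intro ρ'
    have h1 : ρ' = ρ' / (2 * K) * (2 * K) + ρ' % (2 * K) := by
      rw [Nat.mul_comm]; exact (Nat.div_add_mod ρ' (2 * K)).symm
    have h2 := grid3_pos (R := R) (RB := 2 * K) f (g := ρ' / (2 * K)) (r := ρ' % (2 * K)) (w := w)
      (Nat.mod_lt _ (by omega)) hw
    rw [pos3, ← h1] at h2
    exact h2
  rw [← sum_filter_of_ne (p := fun m => m ≤ ρ ∧ (ρ - m) % (2 * K) < K)]
  · apply sum_lt_of_card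
    · -- at most `K` rows
      rw [← hKdef]
      conv_rhs => rw [← card_range K]
      refine card_le_card_of_injOn (fun m => (ρ - m) % (2 * K)) ?_ ?_
      · intro m hm
        rw [mem_coe, mem_filter] at hm
        exact mem_coe.2 (mem_range.2 hm.2.2)
      · intro m hm m' hm' heq
        rw [mem_coe, mem_filter, mem_range] at hm hm'
        simp only at heq
        have h1 := hm.2.1
        have h2 := hm'.2.1
        rcases le_total m m' with hle | hle
        · have h3 : (ρ - m') ≡ (ρ - m) [MOD 2 * K] := heq.symm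
          have h4 := (Nat.modEq_iff_dvd' (by omega)).1 h3
          have h5 : ρ - m - (ρ - m') = m' - m := by omega
          rw [h5] at h4
          have h6 : m' - m = 0 := by
            by_contra hne
            have := Nat.le_of_dvd (by omega) h4
            omega
          omega
        · have h3 : (ρ - m) ≡ (ρ - m') [MOD 2 * K] := heq
          have h4 := (Nat.modEq_iff_dvd' (by omega)).1 h3
          have h5 : ρ - m' - (ρ - m) = m - m' := by omega
          rw [h5] at h4
          have h6 : m - m' = 0 := by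
            by_contra hne
            have := Nat.le_of_dvd (by omega) h4
            omega
          omega
    · intro m _
      split_ifs
      · refine Nat.mul_le_mul (hh m) ?_
        rw [hval]
        have := hfa ((ρ - m) / (2 * K)) ((ρ - m) % (2 * K)) w
        omega
      · exact Nat.zero_le _
  · intro m _ hne
    by_cases hm : m ≤ ρ
    · refine ⟨hm, ?_⟩
      by_contra hcon
      apply hne
      rw [if_pos hm, hval, hf _ _ _ (not_lt.1 hcon), mul_zero]
    · exact absurd (if_neg hm) hne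

end Vale.Agent.P338.H811
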