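import Vale.Agent.P338.H811.Cat
import Vale.Agent.P338.H811.GridE
import Vale.Agent.P338.H373.ChirpE

/-!
The two multiplications of the fast operation, in terms of slots.
-/

namespace Vale.Agent.P338.H811

open Finset Vale.Agent.P338 Vale.Agent.P338.E Vale.Agent.P338.H373

/-! ### exponents -/

theorem two_pow_ex (β : ℕ) (e : ℤ) : 2 ^ Vale.Agent.P338.ex (2 ^ β) e = pw β e := by
  rw [Vale.Agent.P338.ex, pw]
  congr 3
  push_cast
  ring

theorem ex_lt' {b : ℕ} (hb : 0 < b) (e : ℤ) : Vale.Agent.P338.ex b e < 2 * b := by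
  rw [Vale.Agent.P338.ex]
  have h1 : 0 ≤ e % (2 * (b : ℤ)) := Int.emod_nonneg _ (by omega)
  have h2 : e % (2 * (b : ℤ)) < 2 * (b : ℤ) := Int.emod_lt_of_pos _ (by omega)
  omega

theorem two_pow_eh (β m : ℕ) : 2 ^ E.eh (2 ^ β) m = hE β m := by
  rw [E.eh, two_pow_ex, hE, Nat.choose_two_right, Nat.add_sub_cancel, Nat.mul_comm]

theorem two_pow_eh' (β m : ℕ) : 2 ^ E.eh' (2 ^ β) m = hh β m := by
  rw [E.eh', two_pow_ex, hh, Nat.choose_two_right, Nat.add_sub_cancel, Nat.mul_comm]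

theorem two_pow_e1 (β i : ℕ) : 2 ^ E.e1 (2 ^ β) i = pw β ((i.choose 2 : ℕ) : ℤ) := by
  rw [E.e1, two_pow_ex, Nat.choose_two_right]

theorem two_pow_e2 (β k d : ℕ) : 2 ^ E.e2 (2 ^ β) k d = pw β ((k : ℤ) * ((d : ℤ) + 1)) := by
  rw [E.e2, two_pow_ex]
  push_cast
  rfl

theorem two_pow_e3 (β j : ℕ) :
    2 ^ E.e3 (2 ^ β) j = pw β (-(((j + 1).choose 2 : ℕ) : ℤ) - (β + 1)) := by
  have h : Nat.log 2 (2 * 2 ^ β) = β + 1 := by
    rw [← pow_succ', Nat.log_pow (by norm_num)]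
  rw [E.e3, two_pow_ex, Nat.choose_two_right, Nat.add_sub_cancel, Nat.mul_comm, h]
  push_cast
  rfl

theorem eh_lt' {b : ℕ} (hb : 0 < b) (m : ℕ) : E.eh b m < 2 * b := ex_lt' hb _
theorem eh'_lt' {b : ℕ} (hb : 0 < b) (m : ℕ) : E.eh' b m < 2 * b := ex_lt' hb _
theorem e1_lt' {b : ℕ} (hb : 0 < b) (m : ℕ) : E.e1 b m < 2 * b := ex_lt' hb _
theorem e2_lt' {b : ℕ} (hb : 0 < b) (m d : ℕ) : E.e2 b m d < 2 * b := ex_lt' hb _
theorem e3_lt' {b : ℕ} (hb : 0 < b) (m : ℕ) : E.e3 b m < 2 * b := ex_lt' hb _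

/-! ### one slot -/

theorem take_lbits {k l : ℕ} (h : k ≤ l) (v : ℕ) : (lbits l v).take k = lbits k v := by
  obtain ⟨e, rfl⟩ := Nat.exists_eq_add_of_le h
  rw [lbits_add, List.take_left' (length_lbits _ _)]

theorem lbits_mul_two_pow {a k : ℕ} (v : ℕ) : lbits (a + k) (2 ^ a * v) = zer a ++ lbits k v := by
  rw [lbits_add, Nat.mul_div_cancel_left _ (Nat.two_pow_pos a), ← lbits_mod, Nat.mul_mod_right,
    lbits_zero_zer]

theorem slot1_eq {b a : ℕ} {x : List Bool} (ha : a ≤ 2 * b) (hx : x.length = b) :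
    E.slot1 b a x = lbits (13 * b) (2 ^ a * lval x) := by
  have h1 : lval x < 2 ^ b := by have := lval_lt x; rwa [hx] at this
  have e : 13 * b = a + (b + ((2 * b - a) + 10 * b)) := by omega
  rw [e, lbits_mul_two_pow, lbits_pad h1, E.slot1]
  have h2 : lbits b (lval x) = x := by have := lbits_lval x; rwa [hx] at this
  have h3 : List.replicate ((2 * b - a) + 10 * b) false = zer (2 * b - a) ++ zer (10 * b) :=
    zer_add _ _
  rw [h2, h3]
  simp only [List.append_assoc]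

theorem slot2_eq {b a : ℕ} (ha : a ≤ 2 * b) (v : ℕ) :
    E.slot2 b a (lbits (13 * b) v) = lbits (13 * b) (2 ^ a * v) := by
  have e : 13 * b = a + (11 * b + (2 * b - a)) := by omega
  rw [E.slot2, take_lbits (by omega)]
  conv_rhs => rw [e]
  rw [lbits_mul_two_pow]

theorem slot3_eq {b a : ℕ} (ha : a ≤ 2 * b) {v : ℕ} (hv : 2 ^ a * v < 2 ^ (13 * b)) :
    E.slot3 b a (lbits (13 * b) v) = lbits b (2 ^ a * v % (2 ^ b + 1)) := by
  rw [E.slot3, slot2_eq ha, lval_lbits_of_lt hv]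

/-! ### streams of slots -/

theorem slots_grid3 (W R RB G : ℕ) (f : ℕ → ℕ → ℕ → ℕ) :
    slots W (G * RB * R) (grid3 R RB f) =
      cat G fun g => cat RB fun r => cat R fun w => lbits W (f g r w) := by
  rw [slots_eq_cat, cat_mul, cat_mul]
  refine cat_congr fun g _ => cat_congr fun r hr => cat_congr fun w hw => ?_
  rw [← grid3_pos f hr hw, pos3]

theorem seg_slots {W Q : ℕ} (f : ℕ → ℕ) (T : List Bool) {p : ℕ} (hp : p < Q) :
    seg (slots W Q f ++ T) (p * W) W = lbits W (f p) := by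
  have h1 : p * W + W ≤ (slots W Q f).length := by
    rw [length_slots]
    calc p * W + W = W * (p + 1) := by ring
      _ ≤ W * Q := Nat.mul_le_mul_left _ hp
  rw [seg_append_left h1, slots_eq_cat, seg_cat_block (fun i _ => length_lbits _ _) hp]

/-- a group of slots: `K` rows of data and `K` rows of zeros -/
theorem group_eq {n b : ℕ} (F : ℕ → ℕ → ℕ) :
    (cat (2 * b) fun i => cat n fun w => lbits (13 * b) (F i w)) ++ zer (2 * b * E.rowW n b) =
      cat (4 * b) fun r => cat n fun w => lbits (13 * b) (if r < 2 * b then F r w else 0) := by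
  have e : 4 * b = 2 * b + 2 * b := by ring
  rw [e, cat_add]
  congr 1
  · refine cat_congr fun r hr => cat_congr fun w _ => ?_
    rw [if_pos hr]
  · rw [zer_mul]
    refine cat_congr fun r _ => ?_
    rw [E.rowW, zer_mul]
    refine cat_congr fun w _ => ?_
    rw [if_neg (by omega), lbits_zero_zer]

theorem f1_eq {n b Gr : ℕ} (hb : 0 < b) {x : ℕ → ℕ → ℕ → List Bool}
    (hx : ∀ g < Gr, ∀ i < 2 * b, ∀ w < n, (x g i w).length = b) :
    f1 n b Gr x = slots (13 * b) (Gr * (4 * b) * n) (grid3 n (4 * b) fun g r w =>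
      if r < 2 * b ∧ g < Gr then 2 ^ E.e1 b r * lval (x g r w) else 0) := by
  rw [slots_grid3, f1]
  refine cat_congr fun g hg => ?_
  rw [cat_congr (n := 2 * b) (g := fun i => cat n fun w =>
    lbits (13 * b) (2 ^ E.e1 b i * lval (x g i w))), group_eq]
  · refine cat_congr fun r _ => cat_congr fun w _ => ?_
    simp only [hg, and_true]
  · intro i hi
    refine cat_congr fun w hw => ?_
    rw [slot1_eq (e1_lt' hb i).le (hx g hg i hi w hw)]

theorem f2_eq {n b Gr : ℕ} (hb : 0 < b) (hn : 2 * b ∣ n) {y : ℕ → ℕ → ℕ → List Bool}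
    {v : ℕ → ℕ → ℕ → ℕ}
    (hy : ∀ g < Gr, ∀ k < 2 * b, ∀ w < n, y g (2 * b + k) w = lbits (13 * b) (v g k w)) :
    f2 n b Gr y = slots (13 * b) (Gr * (4 * b) * n) (grid3 n (4 * b) fun g r w =>
      if r < 2 * b ∧ g < Gr then 2 ^ E.e2 b r (w % (2 * b)) * v g r w else 0) := by
  obtain ⟨c, rfl⟩ := hn
  have hc : 2 * b * c / (2 * b) = c := Nat.mul_div_cancel_left _ (by omega)
  rw [slots_grid3, f2, hc]
  refine cat_congr fun g hg => ?_
  rw [cat_congr (n := 2 * b) (g := fun i => cat (2 * b * c) fun w =>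
    lbits (13 * b) (2 ^ E.e2 b i (w % (2 * b)) * v g i w)), group_eq]
  · refine cat_congr fun r _ => cat_congr fun w _ => ?_
    simp only [hg, and_true]
  · intro k hk
    rw [Nat.mul_comm (2 * b) c, cat_mul]
    refine cat_congr fun w' hw' => cat_congr fun d hd => ?_
    have h1 : w' * (2 * b) + d < 2 * b * c := by
      calc w' * (2 * b) + d < w' * (2 * b) + 2 * b := by omega
        _ = 2 * b * (w' + 1) := by ring
        _ ≤ 2 * b * c := Nat.mul_le_mul_left _ hw'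
    have h2 : (w' * (2 * b) + d) % (2 * b) = d := by
      rw [Nat.mul_comm, Nat.mul_add_mod, Nat.mod_eq_of_lt hd]
    rw [hy g hg k hk _ h1, slot2_eq (e2_lt' hb k d).le, h2]

theorem kernel_eq {n b : ℕ} (hn : 0 < n) {e : ℕ → ℕ} (he : ∀ m, e m < 13 * b) :
    kernel n b e = slots (13 * b) (n * (4 * b)) (kern n fun m => 2 ^ e m) := by
  obtain ⟨n', rfl⟩ : ∃ n', n = n' + 1 := ⟨n - 1, by omega⟩
  rw [slots_mul]
  change cat _ _ = cat _ _
  refine cat_congr fun m _ => ?_
  rw [slots_succ', slots_congr (g := fun _ => 0), slots_const_zero]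
  · have h1 : kern (n' + 1) (fun m => 2 ^ e m) ((n' + 1) * m + 0) = 2 ^ e m := by
      rw [kern, Nat.add_zero, if_pos (Nat.mul_mod_right _ _),
        Nat.mul_div_cancel_left _ (Nat.succ_pos _)]
    have h2 := he m
    have h3 : 13 * b = e m + (1 + (13 * b - 1 - e m)) := by omega
    have h4 : lbits (13 * b) (2 ^ e m) = zer (e m) ++ ([true] ++ zer (13 * b - 1 - e m)) := by
      have h5 : 2 ^ e m = 2 ^ e m * 1 := by ring
      rw [h5]
      conv_lhs => rw [h3]
      rw [lbits_mul_two_pow, lbits_pad (by norm_num)]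
      rfl
    rw [h1, h4]
    have h6 : E.rowW (n' + 1) b - 1 - e m = (13 * b - 1 - e m) + 13 * b * n' := by
      rw [E.rowW]
      have : (n' + 1) * (13 * b) = 13 * b * n' + 13 * b := by ring
      omega
    rw [h6, zer_add]
    simp only [List.append_assoc]
    rfl
  · intro p hp
    have : ((n' + 1) * m + (p + 1)) % (n' + 1) = p + 1 := by
      rw [Nat.mul_add_mod, Nat.mod_eq_of_lt (by omega)]
    rw [kern, if_neg (by omega)]

theorem lval_fillTo (m : ℕ) (l : List Bool) : lval (fillTo m l) = lval l := by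
  rw [fillTo, lval_append, lval_zer, Nat.mul_zero, Nat.add_zero]

/-- **One multiplication.** Slot `(g, K + k, w)` of the product of the stream of slots of `F` by
the kernel. -/
theorem mul_window {m n β Gr a : ℕ} {h : ℕ → ℕ} {e : ℕ → ℕ} {F : ℕ → ℕ → ℕ → ℕ}
    (hn : n = 2 * 2 ^ β * 2 ^ β * Gr) (hGr : 0 < Gr) (hm : 26 * n * n ≤ m)
    (he : ∀ i, e i < 2 * 2 ^ β) (heh : ∀ i, 2 ^ e i = h i)
    (hF : ∀ g r w, F g r w < 2 ^ a) (ha : 3 * 2 ^ β - 1 + a ≤ 13 * 2 ^ β)
    (hF0 : ∀ g r w, 2 ^ (β + 1) ≤ r → F g r w = 0) (hFG : ∀ g r w, Gr ≤ g → F g r w = 0)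
    {g k w : ℕ} (hg : g < Gr) (hk : k < 2 * 2 ^ β) (hw : w < n) :
    E.slotsOf n (2 ^ β) (mulL m (fillTo m (slots (13 * 2 ^ β) (Gr * (4 * 2 ^ β) * n)
      (grid3 n (4 * 2 ^ β) F))) (fillTo m (kernel n (2 ^ β) e))) g (2 * 2 ^ β + k) w =
      lbits (13 * 2 ^ β) (∑ i ∈ range (2 ^ (β + 1)), h (2 ^ (β + 1) + k - i) * F g i w) := by
  set b := 2 ^ β with hb
  have hb0 : 0 < b := Nat.two_pow_pos β
  have hn0 : 0 < n := by rw [hn]; positivity
  have hK : 2 ^ (β + 1) = 2 * b := by rw [pow_succ', hb]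
  have h4 : 4 * b = 2 * (2 * b) := by ring
  have hbW : ∀ i, h i ≤ 2 ^ (2 * b - 1) := by
    intro i
    rw [← heh]
    exact Nat.pow_le_pow_right (by norm_num) (by have := he i; omega)
  rw [mulL, lval_fillTo, lval_fillTo, kernel_eq hn0 (fun i => by have := he i; omega)]
  have hfun : (fun m => 2 ^ e m) = h := funext heh
  rw [hfun]
  have hconv : ∀ q, conv n (4 * b) h (grid3 n (4 * b) F) q < 2 ^ (13 * b) := by
    intro q
    have h5 := conv_grid3_lt (β := β) (R := n) (a := a) h F hn0 (by rw [← hb]; exact hbW) hF hF0 q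
    rw [hK, ← h4] at h5
    exact lt_of_lt_of_le h5 (Nat.pow_le_pow_right (by norm_num) ha)
  have hprod := lbits_mul_slots (W := 13 * b) (R := n) (M := 4 * b) (P := Gr * (4 * b) * n)
    (Q := Gr * (4 * b) * n + n * (4 * b)) (N := 2 * m) (h := h) (u := grid3 n (4 * b) F) hn0
    (fun p hp => grid3_eq_zero hn0 (by omega) hFG hp)
    (fun p _ => lt_of_lt_of_le (hF _ _ _) (Nat.pow_le_pow_right (by norm_num) (by omega)))
    (fun i _ => lt_of_le_of_lt (hbW i) (Nat.pow_lt_pow_right (by norm_num) (by omega)))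
    (fun q _ => hconv q) le_rfl (by
      have h6 : 13 * b * (Gr * (4 * b) * n + n * (4 * b)) =
          26 * n * (2 * b * b * Gr) + 52 * n * (b * b) := by ring
      have h7 : 2 * (b * b) ≤ n := by
        rw [hn]
        calc 2 * (b * b) = 2 * b * b * 1 := by ring
          _ ≤ 2 * b * b * Gr := Nat.mul_le_mul_left _ hGr
      have h8 : 26 * n * (2 * (b * b)) ≤ 26 * n * n := Nat.mul_le_mul_left _ h7
      have h9 : 52 * n * (b * b) = 26 * n * (2 * (b * b)) := by ring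
      rw [h6, ← hn, h9]
      omega)
  rw [hprod, E.slotsOf]
  change seg _ _ _ = _
  have hp : (g * (4 * b) + (2 * b + k)) * n + w = pos3 n (4 * b) g (2 * b + k) w := rfl
  rw [hp, seg_slots]
  · congr 1
    have hwin := conv_window (R := n) (K := 2 ^ (β + 1)) h F (fun g r w hr => hF0 g r w hr)
      (g := g) (k := k) (w := w) (by rw [hK]; exact hk) hw
    rw [← hwin, hK, ← h4]
  · have := pos3_lt (R := n) (RB := 4 * b) hg (r := 2 * b + k) (w := w) (by omega) hw
    omega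

end Vale.Agent.P338.H811
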