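import Vale.Agent.P338.H811.Bits

/-!
Reduction modulo `2 ^ b + 1` of a number given by its `b`-bit chunks, most significant chunk first,
by streaming subtraction with borrow.
-/

namespace Vale.Agent.P338.H811

/-- one bit of a full subtractor: difference bit of `x - y - c` -/
def subBit (x y c : Bool) : Bool := xor (xor x y) c

/-- one bit of a full subtractor: borrow of `x - y - c` -/
def subBor (x y c : Bool) : Bool := (!x && (y || c)) || (y && c)

/-- difference bits of `x - y - c` (least significant bit first; lists of equal length) -/
def subOut : List Bool → List Bool → Bool → List Bool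
  | x :: xs, y :: ys, c => subBit x y c :: subOut xs ys (subBor x y c)
  | _, _, _ => []

/-- final borrow of `x - y - c` -/
def subBorrow : List Bool → List Bool → Bool → Bool
  | x :: xs, y :: ys, c => subBorrow xs ys (subBor x y c)
  | _, _, c => c

@[simp] theorem length_subOut (xs ys : List Bool) (c : Bool) (h : xs.length = ys.length) :
    (subOut xs ys c).length = xs.length := by
  induction xs generalizing ys c with
  | nil => cases ys <;> rfl
  | cons x xs ih =>
    cases ys with
    | nil => simp at h
    | cons y ys => simp only [subOut, List.length_cons, ih ys _ (by simpa using h)]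

theorem sub_spec (xs ys : List Bool) (c : Bool) (h : xs.length = ys.length) :
    lval (subOut xs ys c) + lval ys + c.toNat =
      lval xs + 2 ^ xs.length * (subBorrow xs ys c).toNat := by
  induction xs generalizing ys c with
  | nil =>
    cases ys with
    | nil => simp [subOut, subBorrow]
    | cons y ys => simp at h
  | cons x xs ih =>
    cases ys with
    | nil => simp at h
    | cons y ys =>
      have ih' := ih ys (subBor x y c) (by simpa using h)
      simp only [subOut, subBorrow, lval_cons, List.length_cons, pow_succ]
      have hb : (subBit x y c).toNat + y.toNat + c.toNat = x.toNat + 2 * (subBor x y c).toNat := by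
        cases x <;> cases y <;> cases c <;> rfl
      have hm : 2 ^ xs.length * 2 * (subBorrow xs ys (subBor x y c)).toNat =
        2 * (2 ^ xs.length * (subBorrow xs ys (subBor x y c)).toNat) := by ring
      rw [hm]
      omega

/-- bits of `x + c` -/
def incOut : List Bool → Bool → List Bool
  | x :: xs, c => xor x c :: incOut xs (x && c)
  | [], _ => []

/-- final carry of `x + c` -/
def incCarry : List Bool → Bool → Bool
  | x :: xs, c => incCarry xs (x && c)
  | [], c => c

@[simp] theorem length_incOut (xs : List Bool) (c : Bool) : (incOut xs c).length = xs.length := by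
  induction xs generalizing c with
  | nil => rfl
  | cons x xs ih => simp [incOut, ih]

theorem inc_spec (xs : List Bool) (c : Bool) :
    lval (incOut xs c) + 2 ^ xs.length * (incCarry xs c).toNat = lval xs + c.toNat := by
  induction xs generalizing c with
  | nil => simp [incOut, incCarry]
  | cons x xs ih =>
    have ih' := ih (x && c)
    simp only [incOut, incCarry, lval_cons, List.length_cons, pow_succ]
    have hb : (xor x c).toNat + 2 * (x && c).toNat = x.toNat + c.toNat := by
      cases x <;> cases c <;> rfl
    have hm : 2 ^ xs.length * 2 * (incCarry xs (x && c)).toNat =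
      2 * (2 ^ xs.length * (incCarry xs (x && c)).toNat) := by ring
    rw [hm]
    omega

/-- one step of the reduction: state `(acc, borrow)`, next chunk -/
def redStep (st : List Bool × Bool) (chunk : List Bool) : List Bool × Bool :=
  (subOut chunk st.1 st.2, subBorrow chunk st.1 st.2)

/-- all steps: the chunks are given most significant first -/
def redAll (b : ℕ) (chunks : List (List Bool)) : List Bool × Bool :=
  chunks.foldl redStep (List.replicate b false, false)

/-- the result of the reduction -/
def redOut (b : ℕ) (chunks : List (List Bool)) : List Bool :=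
  incOut (redAll b chunks).1 (redAll b chunks).2

/-- value of a list of `b`-bit chunks, most significant first -/
def chval (b : ℕ) (chunks : List (List Bool)) : ℕ :=
  chunks.foldl (fun r c => r * 2 ^ b + lval c) 0

theorem chval_append_singleton (b : ℕ) (cs : List (List Bool)) (c : List Bool) :
    chval b (cs ++ [c]) = chval b cs * 2 ^ b + lval c := by
  simp [chval, List.foldl_append]

theorem redAll_append_singleton (b : ℕ) (cs : List (List Bool)) (c : List Bool) :
    redAll b (cs ++ [c]) = redStep (redAll b cs) c := by
  simp [redAll, List.foldl_append]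

theorem redAll_spec (b : ℕ) (chunks : List (List Bool)) (h : ∀ c ∈ chunks, c.length = b) :
    (redAll b chunks).1.length = b ∧
      ((redAll b chunks).2.toNat + lval (redAll b chunks).1) ≡ chval b chunks [MOD 2 ^ b + 1] := by
  induction chunks using List.reverseRecOn with
  | nil => simp [redAll, chval, Nat.ModEq]
  | append_singleton cs c ih =>
    obtain ⟨ih1, ih2⟩ := ih fun c' hc' => h c' (List.mem_append_left _ hc')
    have hc : c.length = b := h c (by simp)
    rw [redAll_append_singleton, chval_append_singleton]
    have hlen : c.length = (redAll b cs).1.length := by rw [hc, ih1]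
    refine ⟨by simp only [redStep]; rw [length_subOut _ _ _ hlen, hc], ?_⟩
    simp only [redStep]
    have hs := sub_spec c (redAll b cs).1 (redAll b cs).2 hlen
    rw [hc] at hs
    set A := lval (subOut c (redAll b cs).1 (redAll b cs).2)
    set β := (subBorrow c (redAll b cs).1 (redAll b cs).2).toNat
    set r := (redAll b cs).2.toNat + lval (redAll b cs).1 with hr
    -- `A + r = lval c + 2 ^ b β`
    have h1 : A + r = lval c + 2 ^ b * β := by omega
    have h2 : r ≡ chval b cs [MOD 2 ^ b + 1] := ih2
    -- add `r` on both sides
    apply Nat.ModEq.add_right_cancel' r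
    have h3 : β + A + r = (2 ^ b + 1) * β + lval c := by
      have : β + A + r = β + (A + r) := by ring
      rw [this, h1]; ring
    have h4 : chval b cs * 2 ^ b + lval c + r ≡ (2 ^ b + 1) * chval b cs + lval c
        [MOD 2 ^ b + 1] := by
      calc chval b cs * 2 ^ b + lval c + r ≡ chval b cs * 2 ^ b + lval c + chval b cs
            [MOD 2 ^ b + 1] := Nat.ModEq.add_left _ h2
        _ = (2 ^ b + 1) * chval b cs + lval c := by ring
    rw [h3]
    refine Nat.ModEq.trans ?_ h4.symm
    have h5 : (2 ^ b + 1) * β ≡ (2 ^ b + 1) * chval b cs [MOD 2 ^ b + 1] := by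
      simp [Nat.ModEq]
    exact Nat.ModEq.add_right _ h5

/-- **The reduction in general**: the `b` low bits of the residue modulo `2 ^ b + 1`. -/
theorem redOut_eq_mod (b : ℕ) (chunks : List (List Bool)) (h : ∀ c ∈ chunks, c.length = b) :
    redOut b chunks = lbits b (chval b chunks % (2 ^ b + 1)) := by
  obtain ⟨h1, h2⟩ := redAll_spec b chunks h
  have h4 : lval (redAll b chunks).1 < 2 ^ b := by
    have := lval_lt (redAll b chunks).1
    rwa [h1] at this
  have h5 := Bool.toNat_le (redAll b chunks).2
  have h6 : (redAll b chunks).2.toNat + lval (redAll b chunks).1 =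
      chval b chunks % (2 ^ b + 1) := by
    have h := h2
    unfold Nat.ModEq at h
    rwa [Nat.mod_eq_of_lt (by omega)] at h
  have h7 := inc_spec (redAll b chunks).1 (redAll b chunks).2
  rw [h1] at h7
  have hlen : (redOut b chunks).length = b := by rw [redOut, length_incOut, h1]
  have h8 : lval (redOut b chunks) = (chval b chunks % (2 ^ b + 1)) % 2 ^ b := by
    have h9 : lval (redOut b chunks) < 2 ^ b := by
      have := lval_lt (redOut b chunks)
      rwa [hlen] at this
    rw [← h6, Nat.add_comm, ← h7, Nat.add_mul_mod_self_left, ← redOut, Nat.mod_eq_of_lt h9]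
  have h10 := lbits_lval (redOut b chunks)
  rw [hlen, h8, lbits_mod] at h10
  exact h10.symm

/-- **Correctness of the reduction.** If the chunks represent a number congruent to `x < 2 ^ b`
modulo `2 ^ b + 1`, the result is the list of the `b` bits of `x`. -/
theorem redOut_eq (b x : ℕ) (chunks : List (List Bool)) (h : ∀ c ∈ chunks, c.length = b)
    (hx : x < 2 ^ b) (hz : chval b chunks ≡ x [MOD 2 ^ b + 1]) :
    redOut b chunks = lbits b x := by
  obtain ⟨h1, h2⟩ := redAll_spec b chunks h
  have h3 : (redAll b chunks).2.toNat + lval (redAll b chunks).1 ≡ x [MOD 2 ^ b + 1] :=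
    h2.trans hz
  have h4 : lval (redAll b chunks).1 < 2 ^ b := by
    have := lval_lt (redAll b chunks).1
    rwa [h1] at this
  have h5 := Bool.toNat_le (redAll b chunks).2
  have h6 : (redAll b chunks).2.toNat + lval (redAll b chunks).1 = x :=
    Nat.ModEq.eq_of_lt_of_lt h3 (by omega) (by omega)
  have h7 := inc_spec (redAll b chunks).1 (redAll b chunks).2
  rw [h1] at h7
  have h8 : (incCarry (redAll b chunks).1 (redAll b chunks).2).toNat = 0 := by
    by_contra hne
    have h9 := Bool.toNat_le (incCarry (redAll b chunks).1 (redAll b chunks).2)
    have h10 : (incCarry (redAll b chunks).1 (redAll b chunks).2).toNat = 1 := by omega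
    rw [h10] at h7
    omega
  rw [h8] at h7
  apply lval_inj
  · rw [redOut, length_incOut, h1, length_lbits]
  · rw [redOut, lval_lbits_of_lt hx]
    omega

/-- chunks (most significant first) of the low `b * t` bits of `z` -/
def chunksOf (b : ℕ) : ℕ → ℕ → List (List Bool)
  | 0, _ => []
  | t + 1, z => chunksOf b t (z / 2 ^ b) ++ [lbits b z]

theorem chunksOf_succ (b t z : ℕ) :
    chunksOf b (t + 1) z = chunksOf b t (z / 2 ^ b) ++ [lbits b z] := rfl

theorem length_mem_chunksOf (b t z : ℕ) : ∀ c ∈ chunksOf b t z, c.length = b := by
  induction t generalizing z with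
  | zero => simp [chunksOf]
  | succ t ih =>
    intro c hc
    rw [chunksOf_succ, List.mem_append, List.mem_singleton] at hc
    rcases hc with hc | rfl
    · exact ih _ c hc
    · exact length_lbits _ _

@[simp] theorem length_chunksOf (b t z : ℕ) : (chunksOf b t z).length = t := by
  induction t generalizing z with
  | zero => rfl
  | succ t ih => simp [chunksOf_succ, ih]

theorem chval_chunksOf (b t z : ℕ) : chval b (chunksOf b t z) = z % 2 ^ (b * t) := by
  induction t generalizing z with
  | zero => simp [chunksOf, chval, Nat.mod_one]
  | succ t ih =>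
    rw [chunksOf_succ, chval_append_singleton, ih, lval_lbits, Nat.mul_succ, Nat.add_comm (b * t) b,
      pow_add, Nat.mod_mul]
    ring

/-- the low `b * t` bits are the chunks in reverse order -/
theorem lbits_eq_chunksOf (b t z : ℕ) :
    lbits (b * t) z = ((chunksOf b t z).reverse).flatten := by
  induction t generalizing z with
  | zero => simp [chunksOf]
  | succ t ih =>
    rw [chunksOf_succ, Nat.mul_succ, Nat.add_comm (b * t) b, lbits_add, ih]
    simp

/-- value of the chunks of a bit list of length `b * t` -/
theorem chval_chunksOf_lval {b t : ℕ} (z : List Bool) (hz : z.length = b * t) :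
    chval b (chunksOf b t (lval z)) = lval z := by
  rw [chval_chunksOf, ← hz, Nat.mod_eq_of_lt (lval_lt z)]

/-- **The reduction of a bit list** of length `b * t` (chunks of `z`, the last chunk first). -/
theorem redOut_list {b t : ℕ} (z : List Bool) (hz : z.length = b * t) :
    redOut b (chunksOf b t (lval z)) = lbits b (lval z % (2 ^ b + 1)) := by
  rw [redOut_eq_mod _ _ (length_mem_chunksOf b t _), chval_chunksOf_lval z hz]

/-- a bit list of length `b * t` is the concatenation of its chunks, in reverse order -/
theorem list_eq_chunksOf {b t : ℕ} (z : List Bool) (hz : z.length = b * t) :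
    z = ((chunksOf b t (lval z)).reverse).flatten := by
  rw [← lbits_eq_chunksOf, ← hz, lbits_lval]

/-- **Correctness of the reduction of a number.** -/
theorem redOut_chunksOf {b t z x : ℕ} (hz : z < 2 ^ (b * t)) (hx : x < 2 ^ b)
    (h : z ≡ x [MOD 2 ^ b + 1]) : redOut b (chunksOf b t z) = lbits b x :=
  redOut_eq b x _ (length_mem_chunksOf b t z) hx (by rwa [chval_chunksOf, Nat.mod_eq_of_lt hz])

end Vale.Agent.P338.H811
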