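import Vale.Agent.P338.CoreSpecE
import Vale.Agent.P338.H811.Bits

/-!
Lemmas on `cat`, segments of concatenations and cyclic rotations.
-/

namespace Vale.Agent.P338.H811

open Vale.Agent.P338 Vale.Agent.P338.E

@[simp] theorem cat_zero (f : ℕ → List Bool) : cat 0 f = [] := rfl

theorem cat_succ (n : ℕ) (f : ℕ → List Bool) : cat (n + 1) f = cat n f ++ f n := by
  simp [cat, List.range_succ, List.flatMap_append]

@[simp] theorem cat_one (f : ℕ → List Bool) : cat 1 f = f 0 := by
  simp [cat]

theorem cat_add (m n : ℕ) (f : ℕ → List Bool) :
    cat (m + n) f = cat m f ++ cat n fun i => f (m + i) := by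
  induction n with
  | zero => simp
  | succ n ih => rw [← Nat.add_assoc, cat_succ, ih, cat_succ, List.append_assoc]

theorem cat_congr {n : ℕ} {f g : ℕ → List Bool} (h : ∀ i < n, f i = g i) : cat n f = cat n g := by
  induction n with
  | zero => rfl
  | succ n ih =>
    rw [cat_succ, cat_succ, ih fun p hp => h p (Nat.lt_succ_of_lt hp), h n (Nat.lt_succ_self n)]

theorem length_cat {n l : ℕ} {f : ℕ → List Bool} (h : ∀ i < n, (f i).length = l) :
    (cat n f).length = n * l := by
  induction n with
  | zero => simp
  | succ n ih =>
    rw [cat_succ, List.length_append, ih fun p hp => h p (Nat.lt_succ_of_lt hp),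
      h n (Nat.lt_succ_self n)]
    ring

theorem cat_mul (m n : ℕ) (f : ℕ → List Bool) :
    cat (m * n) f = cat m fun i => cat n fun j => f (i * n + j) := by
  induction m with
  | zero => simp
  | succ m ih => rw [Nat.succ_mul, cat_add, ih, cat_succ]

/-- nested concatenation as one, the inner length being positive -/
theorem cat_cat {m n : ℕ} (f : ℕ → ℕ → List Bool) :
    (cat m fun i => cat n fun j => f i j) = cat (m * n) fun q => f (q / n) (q % n) := by
  rw [cat_mul]
  refine cat_congr fun i _ => cat_congr fun j hj => ?_
  have hn : 0 < n := by omega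
  rw [Nat.mul_comm, Nat.mul_add_div hn, Nat.div_eq_of_lt hj, Nat.add_zero, Nat.mul_add_mod,
    Nat.mod_eq_of_lt hj]

@[simp] theorem length_zer (n : ℕ) : (zer n).length = n := List.length_replicate

@[simp] theorem lval_zer (n : ℕ) : lval (zer n) = 0 := lval_replicate_false n

theorem zer_add (m n : ℕ) : zer (m + n) = zer m ++ zer n := by
  simp [zer, List.replicate_append_replicate]

theorem zer_mul (m n : ℕ) : zer (m * n) = cat m fun _ => zer n := by
  induction m with
  | zero => simp [zer]
  | succ m ih => rw [Nat.succ_mul, zer_add, ih, cat_succ]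

theorem lbits_zero_zer (k : ℕ) : lbits k 0 = zer k := lbits_zero_right k

theorem slots_eq_cat (W n : ℕ) (f : ℕ → ℕ) : slots W n f = cat n fun p => lbits W (f p) := rfl

/-! ### segments -/

/-- segment of length `l` at position `p` -/
def seg (X : List Bool) (p l : ℕ) : List Bool := (X.drop p).take l

theorem length_seg {X : List Bool} {p l : ℕ} (h : p + l ≤ X.length) : (seg X p l).length = l := by
  rw [seg, List.length_take, List.length_drop]; omega

theorem seg_append_left {X Y : List Bool} {p l : ℕ} (h : p + l ≤ X.length) :
    seg (X ++ Y) p l = seg X p l := by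
  rw [seg, seg, List.drop_append_of_le_length (by omega), List.take_append_of_le_length]
  rw [List.length_drop]; omega

theorem seg_append_right {X Y : List Bool} {p l : ℕ} (h : X.length ≤ p) :
    seg (X ++ Y) p l = seg Y (p - X.length) l := by
  rw [seg, seg, List.drop_append, List.drop_eq_nil_of_le h, List.nil_append]

theorem seg_zero_length (X : List Bool) : seg X 0 X.length = X := by
  rw [seg, List.drop_zero, List.take_length]

theorem seg_seg {X : List Bool} {p l q k : ℕ} (h : q + k ≤ l) :
    seg (seg X p l) q k = seg X (p + q) k := by
  rw [seg, seg, seg, List.drop_take, List.drop_drop, List.take_take]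
  congr 1
  omega

theorem seg_add (X : List Bool) (p k l : ℕ) :
    seg X p (k + l) = seg X p k ++ seg X (p + k) l := by
  rw [seg, seg, seg, List.take_add, List.drop_drop]

/-- a segment inside one block of a concatenation -/
theorem seg_cat {n l : ℕ} {f : ℕ → List Bool} (hf : ∀ i < n, (f i).length = l) {i a k : ℕ}
    (hi : i < n) (ha : a + k ≤ l) : seg (cat n f) (i * l + a) k = seg (f i) a k := by
  obtain ⟨e, rfl⟩ : ∃ e, n = i + (1 + e) := ⟨n - (i + 1), by omega⟩
  have h1 : (cat i f).length = i * l := length_cat fun j hj => hf j (by omega)
  have h2 := hf i (by omega)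
  rw [cat_add, cat_add, seg_append_right (by rw [h1]; omega), h1, Nat.add_sub_cancel_left,
    seg_append_left (by simp only [cat_one, Nat.add_zero]; omega)]
  simp

theorem seg_cat_block {n l : ℕ} {f : ℕ → List Bool} (hf : ∀ i < n, (f i).length = l) {i : ℕ}
    (hi : i < n) : seg (cat n f) (i * l) l = f i := by
  have := seg_cat hf (a := 0) (k := l) hi (by omega)
  rw [Nat.add_zero] at this
  rw [this]
  conv_lhs => rw [← hf i hi]
  exact seg_zero_length _

/-- a segment of a whole number of blocks is the concatenation of the segments of each block -/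
theorem seg_mul (X : List Bool) (p n l : ℕ) :
    seg X p (n * l) = cat n fun i => seg X (p + i * l) l := by
  induction n with
  | zero => simp [seg]
  | succ n ih => rw [Nat.succ_mul, seg_add, ih, cat_succ]

theorem seg_eq_map {X : List Bool} {p l : ℕ} (h : p + l ≤ X.length) :
    seg X p l = (List.range l).map fun t => X.getD (p + t) false := by
  apply List.ext_getElem
  · rw [length_seg h, List.length_map, List.length_range]
  · intro i h1 h2
    rw [length_seg h] at h1
    simp only [seg, List.getElem_take, List.getElem_drop, List.getElem_map, List.getElem_range]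
    rw [List.getD_eq_getElem _ _ (by omega)]

/-! ### rotations -/

theorem seg_rotR_ge {r : ℕ} {X : List Bool} (hr : r ≤ X.length) {p l : ℕ} (hp : r ≤ p)
    (h : p + l ≤ X.length) : seg (rotR r X) p l = seg X (p - r) l := by
  have h1 : (X.drop (X.length - r)).length = r := by rw [List.length_drop]; omega
  rw [rotR, seg_append_right (by rw [h1]; exact hp), h1, seg, seg, List.drop_take, List.take_take]
  congr 1
  omega

theorem seg_rotR_lt {r : ℕ} {X : List Bool} (hr : r ≤ X.length) {p l : ℕ} (h : p + l ≤ r) :
    seg (rotR r X) p l = seg X (X.length - r + p) l := by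
  have h1 : (X.drop (X.length - r)).length = r := by rw [List.length_drop]; omega
  rw [rotR, seg_append_left (by rw [h1]; exact h), seg, seg, List.drop_drop]

@[simp] theorem length_rotR {r : ℕ} {X : List Bool} : (rotR r X).length = X.length := by
  rw [rotR, List.length_append, List.length_drop, List.length_take]; omega

end Vale.Agent.P338.H811
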