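import Vale.Agent.P338.H811.FastE2

/-!
The carry fix, and the theorem `fast_eq_shear`.
-/

namespace Vale.Agent.P338.H811

open Finset Vale.Agent.P338 Vale.Agent.P338.E Vale.Agent.P338.H373

theorem seg_cat3 {G B n b : ℕ} {f : ℕ → ℕ → ℕ → List Bool}
    (hf : ∀ g < G, ∀ i < B, ∀ w < n, (f g i w).length = b) {g i w : ℕ}
    (hg : g < G) (hi : i < B) (hw : w < n) :
    seg (cat G fun g => cat B fun i => cat n fun w => f g i w) (((g * B + i) * n + w) * b) b =
      f g i w := by
  have h1 : ∀ g < G, (cat B fun i => cat n fun w => f g i w).length = B * (n * b) := fun g hg =>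
    length_cat fun i hi => length_cat fun w hw => hf g hg i hi w hw
  have h2 : ∀ i < B, (cat n fun w => f g i w).length = n * b := fun i hi =>
    length_cat fun w hw => hf g hg i hi w hw
  have hw' : w * b + b ≤ n * b := by
    calc w * b + b = (w + 1) * b := by ring
      _ ≤ n * b := Nat.mul_le_mul_right _ hw
  have hi' : i * (n * b) + n * b ≤ B * (n * b) := by
    calc i * (n * b) + n * b = (i + 1) * (n * b) := by ring
      _ ≤ B * (n * b) := Nat.mul_le_mul_right _ hi
  have e : ((g * B + i) * n + w) * b = g * (B * (n * b)) + (i * (n * b) + w * b) := by ring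
  rw [e, seg_cat h1 hg (by omega), seg_cat h2 hi hw',
    seg_cat_block (fun w hw => hf g hg i hi w hw) hw]

theorem length_cat3 {G B n b : ℕ} {f : ℕ → ℕ → ℕ → List Bool}
    (hf : ∀ g < G, ∀ i < B, ∀ w < n, (f g i w).length = b) :
    (cat G fun g => cat B fun i => cat n fun w => f g i w).length = G * B * n * b := by
  rw [length_cat (l := B * (n * b)) fun g hg => length_cat fun i hi => length_cat fun w hw =>
    hf g hg i hi w hw]
  ring

/-- source row -/
def src (N I d : ℕ) : ℕ := (I + N - d) % N

/-- the fast operation as a shear by words -/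
def wshear (n b Gr : ℕ) (X : List Bool) : List Bool :=
  cat (Gr * (2 * b)) fun I => cat (n / (2 * b)) fun w' => cat (2 * b) fun d =>
    seg X ((src (Gr * (2 * b)) I d * n + (w' * (2 * b) + d)) * b) b

theorem fix_mid {n b Gr : ℕ} (hb : 0 < b) (hn : n = 2 * b * b * Gr) (hGr : 0 < Gr)
    {X : List Bool} (hX : X.length = n * n) :
    fix n b Gr (midS n b Gr X) = wshear n b Gr X := by
  have hX' : X.length = Gr * (2 * b) * n * b := by
    rw [hX]; nth_rewrite 1 [hn]; ring
  have hf : ∀ g < Gr, ∀ j < 2 * b, ∀ w < n,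
      (wordsOf n b X g ((j + (2 * b - w % (2 * b))) % (2 * b)) w).length = b :=
    fun g hg j _ w hw => length_wordsOf hX' hg (Nat.mod_lt _ (by omega)) hw
  have hY : (midS n b Gr X).length = Gr * (2 * b) * n * b := by
    rw [midS]; exact length_cat3 hf
  have hword : ∀ g < Gr, ∀ j < 2 * b, ∀ w < n,
      seg (midS n b Gr X) (((g * (2 * b) + j) * n + w) * b) b =
        seg X (((g * (2 * b) + (j + (2 * b - w % (2 * b))) % (2 * b)) * n + w) * b) b :=
    fun g hg j hj w hw => by rw [midS, seg_cat3 hf hg hj hw]; rfl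
  set Y := midS n b Gr X with hYdef
  rw [fix, wshear, cat_mul]
  refine cat_congr fun g hg => cat_congr fun j hj => cat_congr fun w' hw' => ?_
  have hdiv : n / (2 * b) = b * Gr := by
    rw [hn]
    have : 2 * b * b * Gr = 2 * b * (b * Gr) := by ring
    rw [this, Nat.mul_div_cancel_left _ (by omega)]
  rw [hdiv] at hw'
  have hwn : ∀ d < 2 * b, w' * (2 * b) + d < n := by
    intro d hd
    calc w' * (2 * b) + d < w' * (2 * b) + 2 * b := by omega
      _ = (w' + 1) * (2 * b) := by ring
      _ ≤ (b * Gr) * (2 * b) := Nat.mul_le_mul_right _ hw'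
      _ = n := by rw [hn]; ring
  have hwmod : ∀ d < 2 * b, (w' * (2 * b) + d) % (2 * b) = d := by
    intro d hd
    rw [Nat.mul_comm, Nat.mul_add_mod, Nat.mod_eq_of_lt hd]
  have e0 : 2 * b = (j + 1) + (2 * b - 1 - j) := by omega
  change seg Y _ _ ++ seg (rotR _ Y) _ _ = _
  rw [seg_mul, seg_mul]
  conv_rhs => rw [e0, cat_add]
  have hGrB : 0 < Gr * (2 * b) := by positivity
  congr 1
  · refine cat_congr fun d hd => ?_
    have e1 : ((g * (2 * b) + j) * n + w' * (2 * b)) * b + d * b =
        ((g * (2 * b) + j) * n + (w' * (2 * b) + d)) * b := by ring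
    rw [e1, hword g hg j hj _ (hwn d (by omega)), hwmod d (by omega)]
    have e2 : (j + (2 * b - d)) % (2 * b) = j - d := by
      have : j + (2 * b - d) = (j - d) + 2 * b := by omega
      rw [this, Nat.add_mod_right, Nat.mod_eq_of_lt (by omega)]
    have e3 : src (Gr * (2 * b)) (g * (2 * b) + j) d = g * (2 * b) + (j - d) := by
      rw [src]
      have h1 : g * (2 * b) + j + Gr * (2 * b) - d = (g * (2 * b) + (j - d)) + Gr * (2 * b) := by
        omega
      have h2 : g * (2 * b) + 2 * b ≤ Gr * (2 * b) := by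
        calc g * (2 * b) + 2 * b = (g + 1) * (2 * b) := by ring
          _ ≤ _ := Nat.mul_le_mul_right _ hg
      rw [h1, Nat.add_mod_right, Nat.mod_eq_of_lt (by omega)]
    rw [e2, ← e0, e3]
  · refine cat_congr fun t ht => ?_
    have hd : j + 1 + t < 2 * b := by omega
    have e1 : ((g * (2 * b) + j) * n + w' * (2 * b)) * b + (j + 1) * b + t * b =
        ((g * (2 * b) + j) * n + (w' * (2 * b) + (j + 1 + t))) * b := by ring
    rw [e1, ← e0]
    generalize hdd : j + 1 + t = d at *
    have hr : 2 * b * b * n ≤ Y.length := by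
      rw [hY]
      calc 2 * b * b * n = 1 * (2 * b * b * n) := by ring
        _ ≤ Gr * (2 * b * b * n) := Nat.mul_le_mul_right _ hGr
        _ = _ := by ring
    have e2 : (j + (2 * b - d)) % (2 * b) = j + (2 * b - d) := Nat.mod_eq_of_lt (by omega)
    rcases Nat.eq_zero_or_pos g with hg0 | hg0
    · -- first group: comes from the last one
      subst hg0
      have h1 : ((0 * (2 * b) + j) * n + (w' * (2 * b) + d)) * b + b ≤ 2 * b * b * n := by
        have := word_pos_le (Gr := 1) (g := 0) (n := n) (b := b) (i := j) (w := w' * (2 * b) + d)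
          (by omega) hj (hwn d hd)
        calc _ ≤ _ := this
          _ = _ := by ring
      rw [seg_rotR_lt hr h1]
      have h2 : Y.length - 2 * b * b * n + ((0 * (2 * b) + j) * n + (w' * (2 * b) + d)) * b =
          (((Gr - 1) * (2 * b) + j) * n + (w' * (2 * b) + d)) * b := by
        obtain ⟨G', rfl⟩ : ∃ G', Gr = G' + 1 := ⟨Gr - 1, by omega⟩
        have h3 : Y.length = G' * (2 * b * b * n) + 2 * b * b * n := by rw [hY]; ring
        rw [h3, Nat.add_sub_cancel, Nat.add_sub_cancel]
        ring
      rw [h2, hword (Gr - 1) (by omega) j hj _ (hwn d hd), hwmod d hd, e2]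
      have e3 : src (Gr * (2 * b)) (0 * (2 * b) + j) d = (Gr - 1) * (2 * b) + (j + (2 * b - d)) := by
        rw [src]
        obtain ⟨G', rfl⟩ : ∃ G', Gr = G' + 1 := ⟨Gr - 1, by omega⟩
        have h3 : (G' + 1) * (2 * b) = G' * (2 * b) + 2 * b := by ring
        rw [Nat.add_sub_cancel, Nat.mod_eq_of_lt]
        · omega
        · omega
      rw [e3]
    · -- other groups: comes from the previous one
      obtain ⟨g', rfl⟩ : ∃ g', g = g' + 1 := ⟨g - 1, by omega⟩
      have h1 : ((g' + 1) * (2 * b) + j) * n + (w' * (2 * b) + d) =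
          (2 * b * n) + ((g' * (2 * b) + j) * n + (w' * (2 * b) + d)) := by ring
      have h2 : 2 * b * b * n ≤ (((g' + 1) * (2 * b) + j) * n + (w' * (2 * b) + d)) * b := by
        rw [h1]
        calc 2 * b * b * n = (2 * b * n) * b := by ring
          _ ≤ _ := Nat.mul_le_mul_right _ (by omega)
      have h3 : (((g' + 1) * (2 * b) + j) * n + (w' * (2 * b) + d)) * b + b ≤ Y.length := by
        rw [hY]; exact word_pos_le hg hj (hwn d hd)
      rw [seg_rotR_ge hr h2 h3]
      have h4 : (((g' + 1) * (2 * b) + j) * n + (w' * (2 * b) + d)) * b - 2 * b * b * n =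
          ((g' * (2 * b) + j) * n + (w' * (2 * b) + d)) * b := by
        rw [h1]
        have : ((2 * b * n) + ((g' * (2 * b) + j) * n + (w' * (2 * b) + d))) * b =
            2 * b * b * n + ((g' * (2 * b) + j) * n + (w' * (2 * b) + d)) * b := by ring
        rw [this, Nat.add_sub_cancel_left]
      rw [h4, hword g' (by omega) j hj _ (hwn d hd), hwmod d hd, e2]
      have e3 : src (Gr * (2 * b)) ((g' + 1) * (2 * b) + j) d =
          g' * (2 * b) + (j + (2 * b - d)) := by
        rw [src]
        have h5 : (g' + 1) * (2 * b) = g' * (2 * b) + 2 * b := by ring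
        have h6 : (g' + 1) * (2 * b) + j + Gr * (2 * b) - d =
            (g' * (2 * b) + (j + (2 * b - d))) + Gr * (2 * b) := by omega
        have h7 : (g' + 1) * (2 * b) + 2 * b ≤ Gr * (2 * b) := by
          calc (g' + 1) * (2 * b) + 2 * b = (g' + 1 + 1) * (2 * b) := by ring
            _ ≤ _ := Nat.mul_le_mul_right _ hg
        rw [h6, Nat.add_mod_right, Nat.mod_eq_of_lt (by omega)]
      rw [e3]

theorem map_range_mul (m b : ℕ) (F : ℕ → Bool) :
    (List.range (m * b)).map F = cat m fun W => (List.range b).map fun t => F (W * b + t) := by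
  induction m with
  | zero => simp
  | succ m ih =>
    rw [Nat.succ_mul, List.range_add, List.map_append, ih, cat_succ, List.map_map]
    rfl

theorem wshear_eq_shear {n β Gr : ℕ} (hn : n = 2 * 2 ^ β * 2 ^ β * Gr) (hGr : 0 < Gr)
    {X : List Bool} (hX : X.length = n * n) :
    wshear n (2 ^ β) Gr X = shear n β (2 * β + 1) X := by
  set b := 2 ^ β with hbdef
  have hb : 0 < b := Nat.two_pow_pos β
  have hX' : X.length = Gr * (2 * b) * n * b := by
    rw [hX]; nth_rewrite 1 [hn]; ring
  have hdiv : n / (2 * b) = b * Gr := by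
    rw [hn]
    have : 2 * b * b * Gr = 2 * b * (b * Gr) := by ring
    rw [this, Nat.mul_div_cancel_left _ (by omega)]
  have hn' : n = Gr * (2 * b) * b := by rw [hn]; ring
  have hK : 2 ^ (2 * β + 1 - β) = 2 * b := by
    rw [hbdef, ← pow_succ']
    congr 1
    omega
  rw [wshear, shear, hdiv, hK]
  -- rows of the right-hand side
  have hR : ∀ F : ℕ → ℕ → Bool, (cat n fun i => (List.range n).map fun s => F i s) =
      cat (Gr * (2 * b)) fun I => cat b fun r => cat Gr fun w => cat (2 * b) fun d =>
        (List.range b).map fun t => F (I * b + r) ((w * (2 * b) + d) * b + t) := by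
    intro F
    have h1 : ∀ i, (List.range n).map (fun s => F i s) =
        cat Gr fun w => cat (2 * b) fun d => (List.range b).map fun t =>
          F i ((w * (2 * b) + d) * b + t) := by
      intro i
      conv_lhs => rw [hn']
      rw [map_range_mul, cat_mul]
    simp only [h1]
    conv_lhs => rw [hn']
    rw [cat_mul]
  rw [hR fun i s => X.getD (((i + n - ((s / b) % (2 * b) * b) % n) % n) * n + s) false]
  refine cat_congr fun I hI => ?_
  rw [cat_mul]
  refine cat_congr fun r hr => cat_congr fun w hw => cat_congr fun d hd => ?_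
  have hsrc : src (Gr * (2 * b)) I d < Gr * (2 * b) := Nat.mod_lt _ (by positivity)
  have hle : (src (Gr * (2 * b)) I d * n + ((r * Gr + w) * (2 * b) + d)) * b + b ≤ X.length := by
    rw [hX']
    have h1 : (r * Gr + w) * (2 * b) + d < n := by
      have h2 : r * Gr + w + 1 ≤ b * Gr := by
        calc r * Gr + w + 1 ≤ r * Gr + Gr := by omega
          _ = (r + 1) * Gr := by ring
          _ ≤ _ := Nat.mul_le_mul_right _ hr
      calc (r * Gr + w) * (2 * b) + d < (r * Gr + w) * (2 * b) + 2 * b := by omega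
        _ = (r * Gr + w + 1) * (2 * b) := by ring
        _ ≤ b * Gr * (2 * b) := Nat.mul_le_mul_right _ h2
        _ = n := by rw [hn]; ring
    calc _ = (src (Gr * (2 * b)) I d * n + ((r * Gr + w) * (2 * b) + d) + 1) * b := by ring
      _ ≤ (Gr * (2 * b) * n) * b := by
        refine Nat.mul_le_mul_right _ ?_
        calc _ ≤ src (Gr * (2 * b)) I d * n + n := by omega
          _ = (src (Gr * (2 * b)) I d + 1) * n := by ring
          _ ≤ _ := Nat.mul_le_mul_right _ hsrc
  rw [seg_eq_map hle]
  refine List.map_congr_left fun t ht => ?_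
  have ht' := List.mem_range.1 ht
  have e1 : ((w * (2 * b) + d) * b + t) / b = w * (2 * b) + d := by
    rw [Nat.mul_comm _ b, Nat.mul_add_div hb, Nat.div_eq_of_lt ht', Nat.add_zero]
  have e2 : (w * (2 * b) + d) % (2 * b) = d := by
    rw [Nat.mul_comm, Nat.mul_add_mod, Nat.mod_eq_of_lt hd]
  have e3 : d * b % n = d * b := by
    apply Nat.mod_eq_of_lt
    calc d * b < 2 * b * b := Nat.mul_lt_mul_of_pos_right hd hb
      _ = 2 * b * b * 1 := by ring
      _ ≤ 2 * b * b * Gr := Nat.mul_le_mul_left _ hGr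
      _ = n := hn.symm
  have e4 : (I * b + r + n - d * b) % n = src (Gr * (2 * b)) I d * b + r := by
    have hdle : d ≤ I + Gr * (2 * b) := by
      have : 2 * b ≤ Gr * (2 * b) := Nat.le_mul_of_pos_left _ hGr
      omega
    obtain ⟨c, hc⟩ := Nat.exists_eq_add_of_le hdle
    have h1 : I * b + r + n - d * b = b * c + r := by
      have : I * b + n = d * b + b * c := by
        calc I * b + n = (I + Gr * (2 * b)) * b := by nth_rewrite 1 [hn']; ring
          _ = (d + c) * b := by rw [hc]
          _ = _ := by ring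
      omega
    have h2 : src (Gr * (2 * b)) I d = c % (Gr * (2 * b)) := by
      rw [src, hc, Nat.add_sub_cancel_left]
    rw [h1, h2]
    nth_rewrite 1 [hn']
    rw [Nat.mul_comm (Gr * (2 * b)) b, Nat.mod_mul, Nat.mul_add_mod, Nat.mod_eq_of_lt hr,
      Nat.mul_add_div hb, Nat.div_eq_of_lt hr, Nat.add_zero]
    ring
  rw [e1, e2, e3, e4]
  congr 1
  have h5 : r * n = r * (Gr * (2 * b) * b) := by rw [← hn']
  calc _ = src (Gr * (2 * b)) I d * b * n + r * (Gr * (2 * b) * b) + ((w * (2 * b) + d) * b + t) := by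
        ring
    _ = _ := by rw [← h5]; ring

/-- **The fast operation is the shear of a window of digits.** -/
theorem fast_eq_shear {m n L μ : ℕ} (hn : n = 2 ^ L) (hL : 2 * μ + 1 ≤ L)
    (hm : 26 * n * n ≤ m) {X : List Bool} (hX : X.length = n * n) :
    fast m n (2 ^ μ) X = shear n μ (2 * μ + 1) X := by
  set Gr := 2 ^ (L - (2 * μ + 1)) with hGr
  have hGr0 : 0 < Gr := Nat.two_pow_pos _
  have hn' : n = 2 * 2 ^ μ * 2 ^ μ * Gr := by
    rw [hn, hGr]
    have h1 : 2 * 2 ^ μ * 2 ^ μ = 2 ^ (2 * μ + 1) := by rw [pow_succ, two_mul μ, pow_add]; ring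
    rw [h1, ← pow_add]
    congr 1
    omega
  have hdiv : n / (2 * 2 ^ μ * 2 ^ μ) = Gr := by
    rw [hn', Nat.mul_div_cancel_left _ (by positivity)]
  rw [fast]
  simp only [hdiv]
  rw [fast_mid hn' hGr0 hm hX, fix_mid (Nat.two_pow_pos μ) hn' hGr0 hX,
    wshear_eq_shear hn' hGr0 hX]

end Vale.Agent.P338.H811
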