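import Vale.Agent.P338.CoreSpecD
import Vale.Agent.P338.H811.FastE3

/-!
General window theorem (any kernel length), and the general shear by words.
-/

namespace Vale.Agent.P338.H811

open Finset Vale.Agent.P338 Vale.Agent.P338.E

/-- **No slot overflows**, general bound. -/
theorem conv_grid3_le {R K H B : ℕ} (h : ℕ → ℕ) (f : ℕ → ℕ → ℕ → ℕ) (hR : 0 < R) (hK : 0 < K)
    (hh : ∀ m, h m ≤ H) (hfa : ∀ g r w, f g r w ≤ B)
    (hf : ∀ g r w, K ≤ r → f g r w = 0) (q : ℕ) :
    conv R (2 * K) h (grid3 R (2 * K) f) q ≤ K * (H * B) := by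
  obtain ⟨ρ, w, hw, rfl⟩ : ∃ ρ w, w < R ∧ q = ρ * R + w :=
    ⟨q / R, q % R, Nat.mod_lt _ hR, by rw [Nat.mul_comm]; exact (Nat.div_add_mod q R).symm⟩
  rw [conv_row h _ hw]
  -- the value of the data at row `ρ'`
  have hval : ∀ ρ', grid3 R (2 * K) f (ρ' * R + w) = f (ρ' / (2 * K)) (ρ' % (2 * K)) w := by
    intro ρ'
    have h1 : ρ' = ρ' / (2 * K) * (2 * K) + ρ' % (2 * K) := by
      rw [Nat.mul_comm]; exact (Nat.div_add_mod ρ' (2 * K)).symm
    have h2 := grid3_pos (R := R) (RB := 2 * K) f (g := ρ' / (2 * K)) (r := ρ' % (2 * K)) (w := w)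
      (Nat.mod_lt _ (by omega)) hw
    rw [pos3, ← h1] at h2
    exact h2
  rw [← sum_filter_of_ne (p := fun m => m ≤ ρ ∧ (ρ - m) % (2 * K) < K)]
  · refine (sum_le_card_nsmul _ _ (H * B) ?_).trans ?_
    · intro m _
      split_ifs
      · refine Nat.mul_le_mul (hh m) ?_
        rw [hval]
        exact hfa _ _ _
      · exact Nat.zero_le _
    · rw [smul_eq_mul]
      refine Nat.mul_le_mul_right _ ?_
      -- at most `K` rows
      conv_rhs => rw [← card_range K]
      refine card_le_card_of_injOn (fun m => (ρ - m) % (2 * K)) ?_ ?_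
      · intro m hm
        rw [mem_coe, mem_filter] at hm
        exact mem_coe.2 (mem_range.2 hm.2.2)
      · intro m hm m' hm' heq
        rw [mem_coe, mem_filter, mem_range] at hm hm'
        simp only at heq
        have h1 := hm.2.1
        have h2 := hm'.2.1
        rcases le_total m m' with hle | hle
        · have h3 : (ρ - m') ≡ (ρ - m) [MOD 2 * K] := heq.symm
          have h4 := (Nat.modEq_iff_dvd' (by omega)).1 h3
          have h5 : ρ - m - (ρ - m') = m' - m := by omega
          rw [h5] at h4
          have h6 : m' - m = 0 := by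
            by_contra hne
            have := Nat.le_of_dvd (by omega) h4
            omega
          omega
        · have h3 : (ρ - m) ≡ (ρ - m') [MOD 2 * K] := heq
          have h4 := (Nat.modEq_iff_dvd' (by omega)).1 h3
          have h5 : ρ - m' - (ρ - m) = m - m' := by omega
          rw [h5] at h4
          have h6 : m - m' = 0 := by
            by_contra hne
            have := Nat.le_of_dvd (by omega) h4
            omega
          omega
  · intro m _ hne
    by_cases hm : m ≤ ρ
    · refine ⟨hm, ?_⟩
      by_contra hcon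
      apply hne
      rw [if_pos hm, hval, hf _ _ _ (not_lt.1 hcon), mul_zero]
    · exact absurd (if_neg hm) hne

/-- **One multiplication**, general form. -/
theorem mul_windowG {R K G W N H B : ℕ} {h : ℕ → ℕ} {F : ℕ → ℕ → ℕ → ℕ} (hR : 0 < R) (hK : 0 < K)
    (hh : ∀ m, h m ≤ H) (hH : H < 2 ^ W) (hF : ∀ g r w, F g r w ≤ B) (hB : B < 2 ^ W)
    (hKHB : K * (H * B) < 2 ^ W) (hF0 : ∀ g r w, K ≤ r → F g r w = 0)
    (hFG : ∀ g r w, G ≤ g → F g r w = 0) (hN : W * (G * (2 * K) * R + R * (2 * K)) ≤ N)
    {g k w : ℕ} (hg : g < G) (hk : k < K) (hw : w < R) :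
    seg (lbits N (lval (slots W (G * (2 * K) * R) (grid3 R (2 * K) F)) *
      lval (slots W (R * (2 * K)) (kern R h)))) (((g * (2 * K) + (K + k)) * R + w) * W) W =
      lbits W (∑ i ∈ range K, h (K + k - i) * F g i w) := by
  have hprod := lbits_mul_slots (W := W) (R := R) (M := 2 * K) (P := G * (2 * K) * R)
    (Q := G * (2 * K) * R + R * (2 * K)) (N := N) (h := h) (u := grid3 R (2 * K) F) hR
    (fun p hp => grid3_eq_zero hR (by omega) hFG hp)
    (fun p _ => lt_of_le_of_lt (hF _ _ _) hB) (fun i _ => lt_of_le_of_lt (hh i) hH)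
    (fun q _ => lt_of_le_of_lt (conv_grid3_le h F hR hK hh hF hF0 q) hKHB) le_rfl hN
  rw [hprod]
  have hp : (g * (2 * K) + (K + k)) * R + w = pos3 R (2 * K) g (K + k) w := rfl
  rw [hp, seg_slots]
  · congr 1
    exact conv_window h F hF0 hk hw
  · have := pos3_lt (R := R) (RB := 2 * K) hg (r := K + k) (w := w) (by omega) hw
    omega

/-- the general shear by words of `b` bits: `G * D` big rows of `b` matrix rows, digit modulo `D` -/
theorem wshear_gen {n b G D : ℕ} (hb : 0 < b) (hG : 0 < G) (hD : 0 < D) (hn : n = G * D * b)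
    {X : List Bool} (hX : X.length = n * n) :
    (cat (G * D) fun I => cat (b * G) fun w' => cat D fun d =>
      seg X ((src (G * D) I d * n + (w' * D + d)) * b) b) =
    cat n fun i => (List.range n).map fun s =>
      X.getD (((i + n - ((s / b) % D * b) % n) % n) * n + s) false := by
  have hX' : X.length = G * D * n * b := by
    rw [hX]; nth_rewrite 1 [hn]; ring
  -- rows of the right-hand side
  have hR : ∀ F : ℕ → ℕ → Bool, (cat n fun i => (List.range n).map fun s => F i s) =
      cat (G * D) fun I => cat b fun r => cat G fun w => cat D fun d =>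
        (List.range b).map fun t => F (I * b + r) ((w * D + d) * b + t) := by
    intro F
    have h1 : ∀ i, (List.range n).map (fun s => F i s) =
        cat G fun w => cat D fun d => (List.range b).map fun t =>
          F i ((w * D + d) * b + t) := by
      intro i
      conv_lhs => rw [hn]
      rw [map_range_mul, cat_mul]
    simp only [h1]
    conv_lhs => rw [hn]
    rw [cat_mul]
  rw [hR fun i s => X.getD (((i + n - ((s / b) % D * b) % n) % n) * n + s) false]
  refine cat_congr fun I hI => ?_
  rw [cat_mul]
  refine cat_congr fun r hr => cat_congr fun w hw => cat_congr fun d hd => ?_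
  have hsrc : src (G * D) I d < G * D := Nat.mod_lt _ (by positivity)
  have hle : (src (G * D) I d * n + ((r * G + w) * D + d)) * b + b ≤ X.length := by
    rw [hX']
    have h1 : (r * G + w) * D + d < n := by
      have h2 : r * G + w + 1 ≤ b * G := by
        calc r * G + w + 1 ≤ r * G + G := by omega
          _ = (r + 1) * G := by ring
          _ ≤ _ := Nat.mul_le_mul_right _ hr
      calc (r * G + w) * D + d < (r * G + w) * D + D := by omega
        _ = (r * G + w + 1) * D := by ring
        _ ≤ b * G * D := Nat.mul_le_mul_right _ h2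
        _ = n := by rw [hn]; ring
    calc _ = (src (G * D) I d * n + ((r * G + w) * D + d) + 1) * b := by ring
      _ ≤ (G * D * n) * b := by
        refine Nat.mul_le_mul_right _ ?_
        calc _ ≤ src (G * D) I d * n + n := by omega
          _ = (src (G * D) I d + 1) * n := by ring
          _ ≤ _ := Nat.mul_le_mul_right _ hsrc
  rw [seg_eq_map hle]
  refine List.map_congr_left fun t ht => ?_
  have ht' := List.mem_range.1 ht
  have e1 : ((w * D + d) * b + t) / b = w * D + d := by
    rw [Nat.mul_comm _ b, Nat.mul_add_div hb, Nat.div_eq_of_lt ht', Nat.add_zero]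
  have e2 : (w * D + d) % D = d := by
    rw [Nat.mul_comm, Nat.mul_add_mod, Nat.mod_eq_of_lt hd]
  have e3 : d * b % n = d * b := by
    apply Nat.mod_eq_of_lt
    calc d * b < D * b := Nat.mul_lt_mul_of_pos_right hd hb
      _ = 1 * (D * b) := by ring
      _ ≤ G * (D * b) := Nat.mul_le_mul_right _ hG
      _ = n := by rw [hn]; ring
  have e4 : (I * b + r + n - d * b) % n = src (G * D) I d * b + r := by
    have hdle : d ≤ I + G * D := by
      have : D ≤ G * D := Nat.le_mul_of_pos_left _ hG
      omega
    obtain ⟨c, hc⟩ := Nat.exists_eq_add_of_le hdle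
    have h1 : I * b + r + n - d * b = b * c + r := by
      have : I * b + n = d * b + b * c := by
        calc I * b + n = (I + G * D) * b := by nth_rewrite 1 [hn]; ring
          _ = (d + c) * b := by rw [hc]
          _ = _ := by ring
      omega
    have h2 : src (G * D) I d = c % (G * D) := by
      rw [src, hc, Nat.add_sub_cancel_left]
    rw [h1, h2]
    nth_rewrite 1 [hn]
    rw [Nat.mul_comm (G * D) b, Nat.mod_mul, Nat.mul_add_mod, Nat.mod_eq_of_lt hr,
      Nat.mul_add_div hb, Nat.div_eq_of_lt hr, Nat.add_zero]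
    ring
  rw [e1, e2, e3, e4]
  congr 1
  have h5 : r * n = r * (G * D * b) := by rw [← hn]
  calc _ = src (G * D) I d * b * n + r * (G * D * b) + ((w * D + d) * b + t) := by
        ring
    _ = _ := by rw [← h5]; ring

end Vale.Agent.P338.H811
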