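import Vale.Agent.P338.H811.FastE1

/-!
The output of the three passes before the carry fix: a cyclic shift of the rows inside each group.
-/

namespace Vale.Agent.P338.H811

open Finset Vale.Agent.P338 Vale.Agent.P338.E Vale.Agent.P338.H373

theorem length_wordsOf_le (n b : ℕ) (X : List Bool) (g i w : ℕ) :
    (wordsOf n b X g i w).length ≤ b := List.length_take_le _ _

theorem lval_wordsOf_lt (n b : ℕ) (X : List Bool) (g i w : ℕ) :
    lval (wordsOf n b X g i w) < 2 ^ b :=
  lt_of_lt_of_le (lval_lt _) (Nat.pow_le_pow_right (by norm_num) (length_wordsOf_le n b X g i w))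

theorem word_pos_le {n b Gr g i w : ℕ} (hg : g < Gr) (hi : i < 2 * b) (hw : w < n) :
    ((g * (2 * b) + i) * n + w) * b + b ≤ Gr * (2 * b) * n * b := by
  have h1 := pos3_lt hg hi hw
  rw [pos3] at h1
  calc ((g * (2 * b) + i) * n + w) * b + b = ((g * (2 * b) + i) * n + w + 1) * b := by ring
    _ ≤ Gr * (2 * b) * n * b := Nat.mul_le_mul_right _ h1

theorem length_wordsOf {n b Gr : ℕ} {X : List Bool} (hX : X.length = Gr * (2 * b) * n * b)
    {g i w : ℕ} (hg : g < Gr) (hi : i < 2 * b) (hw : w < n) :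
    (wordsOf n b X g i w).length = b := by
  change (seg X _ b).length = b
  exact length_seg (by rw [hX]; exact word_pos_le hg hi hw)

/-- the list after the three passes -/
def midS (n b Gr : ℕ) (X : List Bool) : List Bool :=
  cat Gr fun g => cat (2 * b) fun j => cat n fun w =>
    wordsOf n b X g ((j + (2 * b - w % (2 * b))) % (2 * b)) w

theorem fast_mid {m n β Gr : ℕ} (hn : n = 2 * 2 ^ β * 2 ^ β * Gr) (hGr : 0 < Gr)
    (hm : 26 * n * n ≤ m) {X : List Bool} (hX : X.length = n * n) :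
    f3 n (2 ^ β) Gr (E.slotsOf n (2 ^ β) (mulL m (fillTo m (f2 n (2 ^ β) Gr
      (E.slotsOf n (2 ^ β) (mulL m (fillTo m (f1 n (2 ^ β) Gr (wordsOf n (2 ^ β) X)))
        (fillTo m (kernel n (2 ^ β) (E.eh (2 ^ β)))))))) (fillTo m (kernel n (2 ^ β) (E.eh' (2 ^ β))))))
      = midS n (2 ^ β) Gr X := by
  set b := 2 ^ β with hb
  have hb0 : 0 < b := Nat.two_pow_pos β
  have hK : 2 ^ (β + 1) = 2 * b := by rw [pow_succ', hb]
  have hX' : X.length = Gr * (2 * b) * n * b := by
    rw [hX]; nth_rewrite 1 [hn]; ring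
  have hdvd : 2 * b ∣ n := ⟨b * Gr, by rw [hn]; ring⟩
  -- columns
  set x : ℕ → ℕ → ℕ → ℕ := fun g w i => lval (wordsOf n b X g i w) with hx
  have hxlt : ∀ g w i, x g w i < 2 ^ (2 ^ β) := fun g w i => lval_wordsOf_lt n b X g i w
  -- first operand
  set F1 : ℕ → ℕ → ℕ → ℕ := fun g r w => if r < 2 * b ∧ g < Gr then uE1 β (x g w) r else 0 with hF1
  have hf1 : f1 n b Gr (wordsOf n b X) =
      slots (13 * b) (Gr * (4 * b) * n) (grid3 n (4 * b) F1) := by
    rw [f1_eq hb0 fun g hg i hi w hw => length_wordsOf hX' hg hi hw]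
    congr 2
    funext g r w
    simp only [hF1]
    split_ifs with h
    · rw [uE1, hb, two_pow_e1]
    · rfl
  -- first product
  set P1 := mulL m (fillTo m (f1 n b Gr (wordsOf n b X))) (fillTo m (kernel n b (E.eh b))) with hP1
  have hw1 : ∀ g < Gr, ∀ k < 2 * b, ∀ w < n, E.slotsOf n b P1 g (2 * b + k) w =
      lbits (13 * b) (cE1 β (x g w) k) := by
    intro g hg k hk w hw
    rw [hP1, hf1, mul_window (β := β) (a := 3 * 2 ^ β - 1) (h := hE β) hn hGr hm
      (fun i => eh_lt' hb0 i) (fun i => two_pow_eh β i) _ (by rw [← hb]; omega) _ _ hg hk hw]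
    · congr 1
      rw [cE1]
      refine sum_congr rfl fun i hi => ?_
      have hi' := mem_range.1 hi
      simp only [hF1]
      rw [if_pos ⟨by rw [← hK]; exact hi', hg⟩]
    · intro g r w
      simp only [hF1]
      split_ifs
      · exact uE1_lt β _ (hxlt g w) r
      · exact Nat.two_pow_pos _
    · intro g r w hr
      simp only [hF1]
      rw [if_neg (by rintro ⟨h1, -⟩; omega)]
    · intro g r w hg'
      simp only [hF1]
      rw [if_neg (by rintro ⟨-, h1⟩; omega)]
  -- second operand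
  set F2 : ℕ → ℕ → ℕ → ℕ := fun g r w =>
    if r < 2 * b ∧ g < Gr then uE2 β (w % (2 * b)) (x g w) r else 0 with hF2
  have hf2 : f2 n b Gr (E.slotsOf n b P1) =
      slots (13 * b) (Gr * (4 * b) * n) (grid3 n (4 * b) F2) := by
    rw [f2_eq hb0 hdvd hw1]
    congr 2
    funext g r w
    simp only [hF2]
    split_ifs with h
    · rw [uE2, hb, two_pow_e2]
    · rfl
  -- second product
  set P2 := mulL m (fillTo m (f2 n b Gr (E.slotsOf n b P1))) (fillTo m (kernel n b (E.eh' b)))
    with hP2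
  have hw2 : ∀ g < Gr, ∀ j < 2 * b, ∀ w < n, E.slotsOf n b P2 g (2 * b + j) w =
      lbits (13 * b) (cE2 β (w % (2 * b)) (x g w) j) := by
    intro g hg k hk w hw
    rw [hP2, hf2, mul_window (β := β) (a := 8 * 2 ^ β - 3) (h := hh β) hn hGr hm
      (fun i => eh'_lt' hb0 i) (fun i => two_pow_eh' β i) _ (by rw [← hb]; omega) _ _ hg hk hw]
    · congr 1
      rw [cE2]
      refine sum_congr rfl fun i hi => ?_
      have hi' := mem_range.1 hi
      simp only [hF2]
      rw [if_pos ⟨by rw [← hK]; exact hi', hg⟩]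
    · intro g r w
      simp only [hF2]
      split_ifs
      · exact uE2_lt β _ _ (hxlt g w) r
      · exact Nat.two_pow_pos _
    · intro g r w hr
      simp only [hF2]
      rw [if_neg (by rintro ⟨h1, -⟩; omega)]
    · intro g r w hg'
      simp only [hF2]
      rw [if_neg (by rintro ⟨-, h1⟩; omega)]
  -- last pass
  rw [f3, midS]
  refine cat_congr fun g hg => cat_congr fun j hj => cat_congr fun w hw => ?_
  rw [hw2 g hg j hj w hw]
  have hz : 2 ^ E.e3 b j * cE2 β (w % (2 * b)) (x g w) j = zE β (w % (2 * b)) (x g w) j := by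
    rw [zE, hb, two_pow_e3]
  have hzlt : zE β (w % (2 * b)) (x g w) j < 2 ^ (13 * b) :=
    lt_of_lt_of_le (zE_lt β _ _ (hxlt g w) j)
      (Nat.pow_le_pow_right (by norm_num) (by rw [← hb]; omega))
  rw [slot3_eq (e3_lt' hb0 j).le (by rw [hz]; exact hzlt), hz]
  have hmod := zE_modEq' β (w % (2 * b)) (x g w) j
    (by rw [hK]; exact (Nat.mod_lt _ (by omega)).le)
  rw [hK] at hmod
  have hval : zE β (w % (2 * b)) (x g w) j % (2 ^ b + 1) =
      x g w ((j + (2 * b - w % (2 * b))) % (2 * b)) := by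
    have h1 : zE β (w % (2 * b)) (x g w) j % md β =
        x g w ((j + (2 * b - w % (2 * b))) % (2 * b)) % md β := hmod
    rw [md, ← hb] at h1
    rw [h1, Nat.mod_eq_of_lt]
    exact lt_of_lt_of_le (hxlt g w _) (by rw [← hb]; omega)
  rw [hval]
  simp only [hx]
  have hl := length_wordsOf hX' hg
    (i := (j + (2 * b - w % (2 * b))) % (2 * b)) (Nat.mod_lt _ (by omega)) hw
  have := lbits_lval (wordsOf n b X g ((j + (2 * b - w % (2 * b))) % (2 * b)) w)
  rwa [hl] at this

end Vale.Agent.P338.H811
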