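import Vale.Agent.P338.H811.Reduce
import Vale.Agent.P338.H373.Chirp

/-!
The core operation on concatenations of slots: positions of slots are `(block, row, s, v)`.
-/

namespace Vale.Agent.P338.H811

open Finset Vale.Agent.P338.H373

/-- slot position of `(x, r, s, v)` : block `x`, row `r < RB`, `s < Q`, `v < V` -/
def pos (V Q RB x r s v : ℕ) : ℕ := V * (Q * (RB * x + r) + s) + v

/-- function on positions given by a function of `(x, r, s, v)` -/
def grid (V Q RB : ℕ) (g : ℕ → ℕ → ℕ → ℕ → ℕ) (q : ℕ) : ℕ :=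
  g (q / V / Q / RB) (q / V / Q % RB) (q / V % Q) (q % V)

theorem grid_pos {V Q RB : ℕ} (g : ℕ → ℕ → ℕ → ℕ → ℕ) {x r s v : ℕ} (hr : r < RB) (hs : s < Q)
    (hv : v < V) : grid V Q RB g (pos V Q RB x r s v) = g x r s v := by
  have hV : 0 < V := by omega
  have hQ : 0 < Q := by omega
  have hRB : 0 < RB := by omega
  have h1 : pos V Q RB x r s v / V = Q * (RB * x + r) + s := by
    rw [pos, Nat.mul_add_div hV, Nat.div_eq_of_lt hv, Nat.add_zero]
  have h2 : pos V Q RB x r s v % V = v := by
    rw [pos, Nat.mul_add_mod, Nat.mod_eq_of_lt hv]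
  have h3 : (Q * (RB * x + r) + s) / Q = RB * x + r := by
    rw [Nat.mul_add_div hQ, Nat.div_eq_of_lt hs, Nat.add_zero]
  have h4 : (Q * (RB * x + r) + s) % Q = s := by
    rw [Nat.mul_add_mod, Nat.mod_eq_of_lt hs]
  have h5 : (RB * x + r) / RB = x := by
    rw [Nat.mul_add_div hRB, Nat.div_eq_of_lt hr, Nat.add_zero]
  have h6 : (RB * x + r) % RB = r := by
    rw [Nat.mul_add_mod, Nat.mod_eq_of_lt hr]
  rw [grid, h1, h2, h3, h4, h5, h6]

theorem exists_pos {V Q RB : ℕ} (hV : 0 < V) (hQ : 0 < Q) (hRB : 0 < RB) (q : ℕ) :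
    ∃ x r s v, r < RB ∧ s < Q ∧ v < V ∧ q = pos V Q RB x r s v := by
  refine ⟨q / V / Q / RB, q / V / Q % RB, q / V % Q, q % V, Nat.mod_lt _ hRB, Nat.mod_lt _ hQ,
    Nat.mod_lt _ hV, ?_⟩
  rw [pos, Nat.div_add_mod, Nat.div_add_mod, Nat.div_add_mod]

theorem pos_lt {V Q RB X x r s v : ℕ} (hx : x < X) (hr : r < RB) (hs : s < Q) (hv : v < V) :
    pos V Q RB x r s v < V * (Q * (RB * X)) := by
  have h1 : RB * x + r < RB * X := by
    calc RB * x + r < RB * x + RB := by omega
      _ = RB * (x + 1) := by ring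
      _ ≤ RB * X := Nat.mul_le_mul_left _ hx
  have h2 : Q * (RB * x + r) + s < Q * (RB * X) := by
    calc Q * (RB * x + r) + s < Q * (RB * x + r) + Q := by omega
      _ = Q * (RB * x + r + 1) := by ring
      _ ≤ Q * (RB * X) := Nat.mul_le_mul_left _ h1
  calc pos V Q RB x r s v < V * (Q * (RB * x + r) + s) + V := by rw [pos]; omega
      _ = V * (Q * (RB * x + r) + s + 1) := by ring
      _ ≤ V * (Q * (RB * X)) := Nat.mul_le_mul_left _ h2

/-- a function on the grid that vanishes from block `X` on vanishes outside `[0, V Q RB X)` -/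
theorem grid_eq_zero {V Q RB X : ℕ} {g : ℕ → ℕ → ℕ → ℕ → ℕ} (hV : 0 < V) (hQ : 0 < Q)
    (hRB : 0 < RB) (hg : ∀ x r s v, X ≤ x → g x r s v = 0) {q : ℕ}
    (hq : V * (Q * (RB * X)) ≤ q) : grid V Q RB g q = 0 := by
  obtain ⟨x, r, s, v, hr, hs, hv, rfl⟩ := exists_pos hV hQ hRB q
  rw [grid_pos g hr hs hv]
  apply hg
  by_contra hx
  have := pos_lt (not_le.1 hx) hr hs hv
  omega

theorem conv_grid {V Q RB K M : ℕ} {g : ℕ → ℕ → ℕ → ℕ → ℕ} (h : ℕ → ℕ)
    (hK : K + M ≤ RB + 1) (hM : M ≤ RB) (hg : ∀ x r s v, K ≤ r → g x r s v = 0)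
    {x r s v : ℕ} (hr : r < RB) (hs : s < Q) (hv : v < V) :
    conv (V * Q) M h (grid V Q RB g) (pos V Q RB x r s v) =
      ∑ m ∈ range M, if m ≤ r then h m * g x (r - m) s v else 0 := by
  rw [conv]
  refine sum_congr rfl fun m hm => ?_
  have hm' := mem_range.1 hm
  by_cases hmr : m ≤ r
  · obtain ⟨r', rfl⟩ := Nat.exists_eq_add_of_le hmr
    have e : pos V Q RB x (m + r') s v = V * Q * m + pos V Q RB x r' s v := by
      simp only [pos]; ring
    rw [if_pos (by rw [e]; exact Nat.le_add_right _ _), if_pos hmr, e, Nat.add_sub_cancel_left,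
      Nat.add_sub_cancel_left, grid_pos g (by omega) hs hv]
  · rw [if_neg hmr]
    split_ifs with hle
    · -- the position lies in the previous block
      have hx : 0 < x := by
        by_contra h0
        have hx0 : x = 0 := by omega
        subst hx0
        have h1 : r + 1 ≤ m := by omega
        have h2 : V * Q * (r + 1) ≤ V * Q * m := Nat.mul_le_mul_left _ h1
        have h3 : pos V Q RB 0 r s v < V * Q * (r + 1) := by
          have : pos V Q RB 0 r s v < V * (Q * r + s + 1) := by
            simp only [pos]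
            have : V * (Q * r + s + 1) = V * (Q * r + s) + V := by ring
            rw [this]; simp; exact hv
          refine lt_of_lt_of_le this ?_
          have : V * Q * (r + 1) = V * (Q * r + Q) := by ring
          rw [this]
          exact Nat.mul_le_mul_left _ (by omega)
        omega
      obtain ⟨x', rfl⟩ : ∃ x', x = x' + 1 := ⟨x - 1, by omega⟩
      obtain ⟨r', hr'⟩ : ∃ r', RB + r = m + r' := ⟨RB + r - m, by omega⟩
      have e : pos V Q RB (x' + 1) r s v = V * Q * m + pos V Q RB x' r' s v := by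
        simp only [pos]
        have : RB * (x' + 1) + r = RB * x' + (m + r') := by rw [← hr']; ring
        rw [this]; ring
      rw [e, Nat.add_sub_cancel_left, grid_pos g (by omega) hs hv, hg _ _ _ _ (by omega), mul_zero]
    · rfl

/-- the sum over kernel rows as a sum over data rows -/
theorem sum_rows {K1 M r : ℕ} (h g : ℕ → ℕ) (hr : r + 1 ≤ M) (hK : K1 ≤ r + 1)
    (hg : ∀ i, K1 ≤ i → g i = 0) :
    (∑ m ∈ range M, if m ≤ r then h m * g (r - m) else 0) =
      ∑ i ∈ range K1, h (r - i) * g i := by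
  obtain ⟨e, rfl⟩ := Nat.exists_eq_add_of_le hr
  rw [sum_range_add, sum_eq_zero (s := range e), add_zero]
  · rw [← sum_range_reflect]
    obtain ⟨e', he'⟩ := Nat.exists_eq_add_of_le hK
    rw [he', sum_range_add, sum_eq_zero (s := range e'), add_zero]
    · refine sum_congr rfl fun i hi => ?_
      have hi' := mem_range.1 hi
      rw [if_pos (by omega)]
      have e1 : K1 + e' - 1 - i = r - i := by omega
      have e2 : r - (r - i) = i := by omega
      rw [e1, e2]
    · intro i hi
      have hi' := mem_range.1 hi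
      rw [hg _ (by omega), mul_zero, ite_self]
  · intro m _
    rw [if_neg (by omega)]

/-- bound for all rows -/
theorem sum_rows_lt {β M r a : ℕ} (h g : ℕ → ℕ) (hh : ∀ m, h m ≤ 2 ^ (2 * 2 ^ β - 1))
    (hu : ∀ i, g i < 2 ^ a) (hg : ∀ i, 2 ^ (β + 1) ≤ i → g i = 0) :
    (∑ m ∈ range M, if m ≤ r then h m * g (r - m) else 0) < 2 ^ (3 * 2 ^ β - 1 + a) := by
  set K := 2 ^ (β + 1) with hKdef
  have key : (∑ m ∈ range M, if m ≤ r then h m * g (r - m) else 0) ≤
      ∑ i ∈ range K, (fun i => if i ≤ r then h (r - i) else 0) i * g i := by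
    have h1 : (∑ m ∈ range M, if m ≤ r then h m * g (r - m) else 0) ≤
        ∑ m ∈ range (r + 1), h m * g (r - m) := by
      rw [← sum_filter]
      refine sum_le_sum_of_subset_of_nonneg ?_ fun _ _ _ => Nat.zero_le _
      intro m hm
      rw [mem_filter] at hm
      exact mem_range.2 (by omega)
    refine h1.trans ?_
    rw [← sum_range_reflect]
    have h2 : ∀ i ∈ range (r + 1), h (r + 1 - 1 - i) * g (r - (r + 1 - 1 - i)) =
        (fun i => if i ≤ r then h (r - i) else 0) i * g i := by
      intro i hi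
      have hi' := mem_range.1 hi
      have e1 : r + 1 - 1 - i = r - i := by omega
      have e2 : r - (r - i) = i := by omega
      simp only [e1, e2]
      rw [if_pos (by omega)]
    rw [sum_congr rfl h2]
    -- terms with `i ≥ K` vanish
    rw [← sum_filter_add_sum_filter_not (range (r + 1)) (fun i => i < K)]
    have h3 : ∑ i ∈ range (r + 1) with ¬ i < K,
        (fun i => if i ≤ r then h (r - i) else 0) i * g i = 0 := by
      refine sum_eq_zero fun i hi => ?_
      rw [mem_filter] at hi
      rw [hg i (not_lt.1 hi.2), mul_zero]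
    rw [h3, add_zero]
    refine sum_le_sum_of_subset_of_nonneg ?_ fun _ _ _ => Nat.zero_le _
    intro i hi
    rw [mem_filter] at hi
    exact mem_range.2 hi.2
  refine lt_of_le_of_lt key ?_
  refine conv_lt β K a le_rfl _ _ ?_ hu
  intro m
  show (if m ≤ r then h (r - m) else 0) ≤ _
  split_ifs
  · exact hh _
  · exact Nat.zero_le _

end Vale.Agent.P338.H811
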