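import Vale.Agent.P338.H811.Reduce

/-!
Reduction modulo `2 ^ b + 1`, chunks taken LEAST significant first, for an odd number of chunks.
-/

namespace Vale.Agent.P338.H811

theorem two_pow_cast (b : ℕ) : (2 : ZMod (2 ^ b + 1)) ^ b = -1 := by
  have h : ((2 ^ b + 1 : ℕ) : ZMod (2 ^ b + 1)) = 0 := ZMod.natCast_self _
  push_cast at h
  exact eq_neg_of_add_eq_zero_left h

theorem chval_snoc_cast (b : ℕ) (cs : List (List Bool)) (c : List Bool) :
    (chval b (cs ++ [c]) : ZMod (2 ^ b + 1)) = -(chval b cs : ZMod (2 ^ b + 1)) + lval c := by
  rw [chval_append_singleton]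
  push_cast
  rw [two_pow_cast]
  ring

theorem chval_cons_cast (b : ℕ) (cs : List (List Bool)) (c : List Bool) :
    (chval b (c :: cs) : ZMod (2 ^ b + 1)) =
      (chval b cs : ZMod (2 ^ b + 1)) + (-1) ^ cs.length * lval c := by
  induction cs using List.reverseRecOn with
  | nil => simp [chval]
  | append_singleton cs d ih =>
    have e : c :: (cs ++ [d]) = (c :: cs) ++ [d] := rfl
    rw [e, chval_snoc_cast, chval_snoc_cast, ih, List.length_append, List.length_singleton,
      pow_succ]
    ring

theorem chval_reverse_cast (b : ℕ) (cs : List (List Bool)) :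
    (chval b cs.reverse : ZMod (2 ^ b + 1)) =
      (-1) ^ (cs.length + 1) * (chval b cs : ZMod (2 ^ b + 1)) := by
  induction cs using List.reverseRecOn with
  | nil => simp [chval]
  | append_singleton cs d ih =>
    rw [List.reverse_append, List.reverse_singleton, List.singleton_append, chval_cons_cast, ih,
      chval_snoc_cast, List.length_reverse, List.length_append, List.length_singleton, pow_succ,
      pow_succ]
    ring

theorem chval_reverse_modEq (b : ℕ) (cs : List (List Bool)) (h : Odd cs.length) :
    chval b cs.reverse ≡ chval b cs [MOD 2 ^ b + 1] := by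
  rw [← ZMod.natCast_eq_natCast_iff, chval_reverse_cast, (h.add_one).neg_one_pow, one_mul]

/-- **Least significant chunk first**, an odd number `t` of chunks. -/
theorem redOut_reverse {b t : ℕ} (ht : Odd t) (z : List Bool) (hz : z.length = b * t) :
    redOut b (chunksOf b t (lval z)).reverse = lbits b (lval z % (2 ^ b + 1)) := by
  have hl := length_mem_chunksOf b t (lval z)
  rw [redOut_eq_mod b _ fun c hc => hl c (List.mem_reverse.1 hc)]
  have h1 := chval_reverse_modEq b (chunksOf b t (lval z)) (by rwa [length_chunksOf])
  rw [chval_chunksOf_lval z hz] at h1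
  congr 1

/-- the chunks of a bit list `c_0 ++ c_1 ++ ... ` of equal lengths `b`, least significant first -/
theorem chunksOf_reverse_flatten {b : ℕ} (cs : List (List Bool)) (h : ∀ c ∈ cs, c.length = b) :
    (chunksOf b cs.length (lval cs.flatten)).reverse = cs := by
  induction cs with
  | nil => rfl
  | cons c cs ih =>
    have hc : c.length = b := h c (by simp)
    have h1 : lbits b (lval (c :: cs).flatten) = c := by
      rw [List.flatten_cons, lval_append, hc, ← lbits_mod, Nat.add_mul_mod_self_left,
        lbits_mod]
      have := lbits_lval c
      rwa [hc] at this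
    have h2 : lval (c :: cs).flatten / 2 ^ b = lval cs.flatten := by
      rw [List.flatten_cons, lval_append, hc, Nat.add_mul_div_left _ _ (Nat.two_pow_pos b),
        Nat.div_eq_of_lt (by have := lval_lt c; rwa [hc] at this), Nat.zero_add]
    rw [List.length_cons, chunksOf_succ, h1, h2, List.reverse_append, List.reverse_singleton,
      List.singleton_append, ih fun c' hc' => h c' (by simp [hc'])]

/-- **The reduction of a concatenation of an odd number of chunks**, taken in the order of the
list (least significant first). -/
theorem redOut_flatten {b : ℕ} (cs : List (List Bool)) (h : ∀ c ∈ cs, c.length = b)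
    (ht : Odd cs.length) : redOut b cs = lbits b (lval cs.flatten % (2 ^ b + 1)) := by
  have hz : cs.flatten.length = b * cs.length := by
    clear ht
    induction cs with
    | nil => rfl
    | cons c cs ih =>
      rw [List.flatten_cons, List.length_append, ih fun c' hc' => h c' (by simp [hc']),
        h c (by simp), List.length_cons]
      ring
  have := redOut_reverse ht cs.flatten hz
  rwa [chunksOf_reverse_flatten cs h] at this

end Vale.Agent.P338.H811
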